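import Vale.Agent.P112.H8.Cover
import Vale.Agent.P112.T.Defs

/-!
# The shifted dyadic grid `T.q`: measurability, nestedness, cells, neighbours
-/

open MeasureTheory Set
open scoped ENNReal ContDiff

namespace Vale.Agent.P112.H8

open Vale.Agent.P112.T

theorem q_meas (τ : ℝ) (i : ℕ) : Measurable (q τ i) := by
  unfold T.q
  exact Int.measurable_floor.comp (by fun_prop)

theorem q_eq_iff (τ : ℝ) (i : ℕ) (x : ℝ) (m : ℤ) :
    q τ i x = m ↔ (m:ℝ) ≤ 2^i * (x - τ) ∧ 2^i * (x - τ) < m + 1 := by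
  unfold T.q
  exact Int.floor_eq_iff

theorem q_nest (τ : ℝ) (i : ℕ) (x x' : ℝ) (h : q τ (i+1) x = q τ (i+1) x') :
    q τ i x = q τ i x' := by
  obtain ⟨a1, a2⟩ := (q_eq_iff τ (i+1) x _).1 rfl
  obtain ⟨b1, b2⟩ := (q_eq_iff τ (i+1) x' _).1 h.symm
  obtain ⟨c1, c2⟩ := (q_eq_iff τ i x _).1 rfl
  obtain ⟨d1, d2⟩ := (q_eq_iff τ i x' _).1 rfl
  set m := q τ (i+1) x
  set p := q τ i x
  set p' := q τ i x'
  rw [pow_succ] at a1 a2 b1 b2
  have e1 : (m:ℝ) < 2 * p + 2 := by nlinarith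
  have e2 : (2:ℝ) * p < m + 1 := by nlinarith
  have e3 : (m:ℝ) < 2 * p' + 2 := by nlinarith
  have e4 : (2:ℝ) * p' < m + 1 := by nlinarith
  have f1 : m < 2 * p + 2 := by exact_mod_cast e1
  have f2 : 2 * p < m + 1 := by exact_mod_cast e2
  have f3 : m < 2 * p' + 2 := by exact_mod_cast e3
  have f4 : 2 * p' < m + 1 := by exact_mod_cast e4
  omega

theorem q_cell (τ : ℝ) (i : ℕ) (m : ℤ) :
    {x | q τ i x = m} = Ico (τ + m / 2^i) (τ + (m+1) / 2^i) := by
  ext x
  rw [mem_ofPred_eq, q_eq_iff, mem_Ico]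
  have h : (0:ℝ) < 2^i := by positivity
  constructor
  · rintro ⟨h1, h2⟩
    constructor
    · have : (m:ℝ) / 2^i ≤ x - τ := by rw [div_le_iff₀ h]; linarith
      linarith
    · have : x - τ < (m+1) / 2^i := by rw [lt_div_iff₀ h]; linarith
      linarith
  · rintro ⟨h1, h2⟩
    constructor
    · have : (m:ℝ) / 2^i ≤ x - τ := by linarith
      rw [div_le_iff₀ h] at this; linarith
    · have : x - τ < (m+1) / 2^i := by linarith
      rw [lt_div_iff₀ h] at this; linarith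

theorem q_vol (τ : ℝ) (i : ℕ) (m : ℤ) :
    volume {x | q τ i x = m} = ENNReal.ofReal ((1/2)^i) := by
  rw [q_cell, Real.volume_Ico]
  congr 1
  rw [one_div, inv_pow]
  have h : (2:ℝ)^i ≠ 0 := by positivity
  field_simp
  ring

/-- The shifted dyadic grid. -/
noncomputable def gr (τ : ℝ) : Grid where
  q := q τ
  meas := q_meas τ
  nest := q_nest τ
  vol := fun i _ => q_vol τ i _

/-- near points lie in one of three cells -/
theorem q_near (τ : ℝ) (i : ℕ) (x x' : ℝ) (h : |x - x'| ≤ 1 / 2^i) :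
    q τ i x = q τ i x' ∨ q τ i x = q τ i (x' - 1/2^i) ∨ q τ i x = q τ i (x' + 1/2^i) := by
  have h2 : (0:ℝ) < 2^i := by positivity
  have e1 : q τ i (x' - 1/2^i) = q τ i x' - 1 := by
    unfold T.q
    rw [← Int.floor_sub_one]; congr 1; field_simp; ring
  have e2 : q τ i (x' + 1/2^i) = q τ i x' + 1 := by
    unfold T.q
    rw [← Int.floor_add_one]; congr 1; field_simp; ring
  rw [e1, e2]
  obtain ⟨c1, c2⟩ := (q_eq_iff τ i x _).1 rfl
  obtain ⟨d1, d2⟩ := (q_eq_iff τ i x' _).1 rfl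
  have h3 : |2^i * (x - τ) - 2^i * (x' - τ)| ≤ 1 := by
    have : 2^i * (x - τ) - 2^i * (x' - τ) = 2^i * (x - x') := by ring
    rw [this, abs_mul, abs_of_pos h2]
    calc 2^i * |x - x'| ≤ 2^i * (1/2^i) := by gcongr
      _ = 1 := by field_simp
  rw [abs_le] at h3
  set p := q τ i x
  set p' := q τ i x'
  have f1 : (p:ℝ) < p' + 2 := by linarith
  have f2 : (p':ℝ) < p + 2 := by linarith
  have g1 : p < p' + 2 := by exact_mod_cast f1
  have g2 : p' < p + 2 := by exact_mod_cast f2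
  omega

end Vale.Agent.P112.H8
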