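import Vale.Agent.P112.T.Defs

/-!
# Elementary facts on the kernels of chapter (T)
-/

open MeasureTheory Set
open scoped ENNReal ContDiff

namespace Vale.Agent.P112.H8

open Vale.Agent.P112.T

variable {M : ℕ}

theorem K_cont (κ : Ker M) : Continuous κ.K := κ.smoothK.continuous

theorem psi_cont (κ : Ker M) : Continuous κ.psi :=
  κ.smoothΦ.continuous_iteratedDeriv M (by exact_mod_cast le_top)

theorem psi_supp (κ : Ker M) (t : ℝ) (ht : 1 < |t|) : κ.psi t = 0 := by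
  have h1 : tsupport κ.Φ ⊆ Icc (-1) 1 := by
    apply closure_minimal _ isClosed_Icc
    intro x hx
    by_contra hx'
    apply hx
    apply κ.suppΦ
    rw [mem_Icc, not_and_or] at hx'
    rcases hx' with h | h
    · rw [le_abs]; right; linarith
    · rw [le_abs]; left; linarith
  by_contra hne
  have h2 : iteratedFDeriv ℝ M κ.Φ t ≠ 0 := by
    intro h0
    apply hne
    unfold Ker.psi
    rw [iteratedDeriv_eq_iteratedFDeriv, h0]
    simp
  have h3 := h1 (support_iteratedFDeriv_subset (𝕜 := ℝ) M h2)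
  rw [mem_Icc] at h3
  rw [lt_abs] at ht
  rcases ht with h | h <;> linarith [h3.1, h3.2]

theorem cont_supp_bdd {f : ℝ → ℝ} (hf : Continuous f) (R : ℝ) (h : ∀ t, R < |t| → f t = 0) :
    ∃ B, 0 < B ∧ ∀ t, |f t| ≤ B := by
  obtain ⟨B, hB⟩ := (isCompact_Icc (a := -R) (b := R)).exists_bound_of_continuousOn hf.continuousOn
  refine ⟨max B 1, by positivity, fun t => ?_⟩
  by_cases ht : R < |t|
  · rw [h t ht]; simp
  · refine le_trans ?_ (le_max_left _ _)
    have := hB t (by rw [mem_Icc]; exact abs_le.1 (not_lt.1 ht))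
    rwa [Real.norm_eq_abs] at this

theorem K_bdd (κ : Ker M) : ∃ B, 0 < B ∧ ∀ t, |κ.K t| ≤ B :=
  cont_supp_bdd (K_cont κ) (1/8) fun t ht => κ.suppK t ht.le

theorem psi_bdd (κ : Ker M) : ∃ B, 0 < B ∧ ∀ t, |κ.psi t| ≤ B :=
  cont_supp_bdd (psi_cont κ) 1 (psi_supp κ)

theorem k_bdd (κ : Ker M) : ∃ B, 0 < B ∧ ∀ j v z ζ, |κ.k j v z ζ| ≤ B * 2 ^ j := by
  obtain ⟨B1, h1, h1'⟩ := K_bdd κ
  obtain ⟨B2, h2, h2'⟩ := psi_bdd κ
  refine ⟨B1 * B2, by positivity, fun j v z ζ => ?_⟩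
  unfold Ker.k
  rw [abs_mul, abs_mul, abs_of_pos (by positivity : (0:ℝ) < 2^j)]
  calc (2:ℝ) ^ j * |κ.K (2 ^ j * (z.1 - ζ.1))| * |κ.psi (z.2 - ζ.2 - (z.1 - ζ.1) * v)|
      ≤ 2 ^ j * B1 * B2 := by gcongr; exacts [h1' _, h2' _]
    _ = _ := by ring

theorem k_ne (κ : Ker M) (j : ℕ) (v : ℝ) (z ζ : ℝ × ℝ) (h : κ.k j v z ζ ≠ 0) :
    |z.1 - ζ.1| < 1 / (8 * 2 ^ j) ∧ |z.2 - ζ.2 - (z.1 - ζ.1) * v| ≤ 1 := by
  unfold Ker.k at h
  have hK : κ.K (2 ^ j * (z.1 - ζ.1)) ≠ 0 := fun h0 => h (by rw [h0]; ring)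
  have hp : κ.psi (z.2 - ζ.2 - (z.1 - ζ.1) * v) ≠ 0 := fun h0 => h (by rw [h0]; ring)
  refine ⟨?_, ?_⟩
  · by_contra hc
    apply hK
    apply κ.suppK
    rw [abs_mul, abs_of_pos (by positivity : (0:ℝ) < 2^j)]
    rw [not_lt, div_le_iff₀ (by positivity)] at hc
    linarith
  · by_contra hc
    exact hp (psi_supp κ _ (not_le.1 hc))

theorem k_cont (κ : Ker M) (j : ℕ) :
    Continuous (fun p : ℝ × (ℝ × ℝ) × (ℝ × ℝ) => κ.k j p.1 p.2.1 p.2.2) := by
  unfold Ker.k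
  have h1 := K_cont κ
  have h2 := psi_cont κ
  exact ((continuous_const.mul (h1.comp (by fun_prop))).mul (h2.comp (by fun_prop)))

/-- Joint measurability with a measurable scale function and a measurable slope function. -/
theorem k_meas (κ : Ker M) {α : Type*} [MeasurableSpace α] {lev : α → ℕ} (hl : Measurable lev)
    {v : α → ℝ} (hv : Measurable v) {Z W : α → ℝ × ℝ} (hZ : Measurable Z) (hW : Measurable W) :
    Measurable (fun p => κ.k (lev p) (v p) (Z p) (W p)) := by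
  have hp : Measurable (fun p => (2:ℝ) ^ (lev p)) :=
    (measurable_of_countable (fun m : ℕ => (2:ℝ)^m)).comp hl
  have h1 := (K_cont κ).measurable
  have h2 := (psi_cont κ).measurable
  unfold Ker.k
  exact (hp.mul (h1.comp (hp.mul (hZ.fst.sub hW.fst)))).mul
    (h2.comp ((hZ.snd.sub hW.snd).sub ((hZ.fst.sub hW.fst).mul hv)))

/-- `L¹` bound in `ζ` (constant may depend on the bound of the slope). -/
theorem k_L1 (κ : Ker M) (U : ℝ) (n : ℕ) : ∃ B : ℝ≥0∞, B ≠ ⊤ ∧ ∀ j ≤ n, ∀ v, |v| ≤ U →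
    ∀ z, ∫⁻ ζ, ‖κ.k j v z ζ‖ₑ ≤ B := by
  obtain ⟨B, hB, h⟩ := k_bdd κ
  have hbox : ∀ z : ℝ × ℝ, volume ((Icc (z.1 - 1) (z.1 + 1)) ×ˢ
      (Icc (z.2 - (1 + |U|)) (z.2 + (1 + |U|)))) =
      ENNReal.ofReal 2 * ENNReal.ofReal (2 * (1 + |U|)) := by
    intro z
    rw [Measure.volume_eq_prod, Measure.prod_prod, Real.volume_Icc, Real.volume_Icc]
    congr 2 <;> ring
  refine ⟨ENNReal.ofReal (B * 2 ^ n) * (ENNReal.ofReal 2 * ENNReal.ofReal (2 * (1 + |U|))),
    ENNReal.mul_ne_top ENNReal.ofReal_ne_top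
      (ENNReal.mul_ne_top ENNReal.ofReal_ne_top ENNReal.ofReal_ne_top), ?_⟩
  intro j hj v hv z
  calc ∫⁻ ζ, ‖κ.k j v z ζ‖ₑ
      ≤ ∫⁻ ζ, ((Icc (z.1 - 1) (z.1 + 1)) ×ˢ
      (Icc (z.2 - (1 + |U|)) (z.2 + (1 + |U|)))).indicator
        (fun _ => ENNReal.ofReal (B * 2 ^ n)) ζ := by
        refine lintegral_mono fun ζ => ?_
        simp only
        by_cases h0 : κ.k j v z ζ = 0
        · rw [h0]; simp
        · obtain ⟨a1, a2⟩ := k_ne κ j v z ζ h0
          have h8 : 1 / (8 * (2:ℝ) ^ j) ≤ 1 / 8 := by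
            apply one_div_le_one_div_of_le (by norm_num)
            have : (1:ℝ) ≤ 2^j := one_le_pow₀ (by norm_num)
            linarith
          have a3 : |z.1 - ζ.1| ≤ 1 := by linarith
          have a4 : |(z.1 - ζ.1) * v| ≤ |U| := by
            rw [abs_mul]
            calc |z.1 - ζ.1| * |v| ≤ 1 * |v| := by gcongr
              _ ≤ |U| := by rw [one_mul]; exact hv.trans (le_abs_self U)
          have hm : ζ ∈ (Icc (z.1 - 1) (z.1 + 1)) ×ˢ
              (Icc (z.2 - (1 + |U|)) (z.2 + (1 + |U|))) := by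
            rw [abs_le] at a2 a3 a4
            simp only [mem_prod, mem_Icc]
            refine ⟨⟨?_, ?_⟩, ?_, ?_⟩ <;> linarith [a2.1, a2.2, a3.1, a3.2, a4.1, a4.2]
          rw [indicator_of_mem hm, Real.enorm_eq_ofReal_abs]
          apply ENNReal.ofReal_le_ofReal
          refine (h j v z ζ).trans ?_
          have : (2:ℝ)^j ≤ 2^n := pow_le_pow_right₀ (by norm_num) hj
          gcongr
    _ = _ := by
        rw [lintegral_indicator (measurableSet_Icc.prod measurableSet_Icc), lintegral_const,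
          Measure.restrict_apply_univ, hbox]

end Vale.Agent.P112.H8
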