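import Mathlib

/-!
# One-sided TT* lemma

`tts`: for a kernel `k z ζ` (bounded, with bounded `L¹` norms in `ζ`) and integrable `g`,
if `|∫ k z ζ k z' ζ dζ| ≤ b z z' + b z' z`, then
`‖∫ g z k z · dz‖₂² ≤ 2 ∫ |g z'| ∫ |g z| b z z' dz dz'`.
-/

open MeasureTheory Set
open scoped ENNReal

namespace Vale.Agent.P112.H8

theorem tts {α β : Type*} [MeasurableSpace α] [MeasurableSpace β] (μ : Measure α) [SFinite μ]
    (ν : Measure β) [SFinite ν] (k : α → β → ℝ) (hk : Measurable (fun p : α × β => k p.1 p.2))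
    (B1 B2 : ℝ≥0∞) (hB1 : B1 ≠ ∞) (hB2 : B2 ≠ ∞) (h1 : ∀ᵐ z ∂μ, ∀ s, ‖k z s‖ₑ ≤ B1)
    (h2 : ∀ᵐ z ∂μ, ∫⁻ s, ‖k z s‖ₑ ∂ν ≤ B2)
    (g : α → ℝ) (hgm : Measurable g) (hg : Integrable g μ)
    (b : α → α → ℝ≥0∞) (hb : Measurable (fun p : α × α => b p.1 p.2))
    (hκ : ∀ᵐ z ∂μ, ∀ᵐ z' ∂μ, ‖∫ s, k z s * k z' s ∂ν‖ₑ ≤ b z z' + b z' z) :
    ∫⁻ s, ‖∫ z, g z * k z s ∂μ‖ₑ ^ 2 ∂ν ≤
      2 * ∫⁻ z', ‖g z'‖ₑ * ∫⁻ z, ‖g z‖ₑ * b z z' ∂μ ∂μ := by
  classical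
  have hgfin : ∫⁻ z, ‖g z‖ₑ ∂μ ≠ ∞ := hg.2.ne
  -- the function on the triple product
  set F : β × (α × α) → ℝ := fun p => (g p.2.1 * k p.2.1 p.1) * (g p.2.2 * k p.2.2 p.1) with hF
  have hFm : Measurable F := by
    have e1 : Measurable (fun p : β × (α × α) => k p.2.1 p.1) :=
      hk.comp (measurable_snd.fst.prodMk measurable_fst)
    have e2 : Measurable (fun p : β × (α × α) => k p.2.2 p.1) :=
      hk.comp (measurable_snd.snd.prodMk measurable_fst)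
    exact (((hgm.comp measurable_snd.fst).mul e1).mul ((hgm.comp measurable_snd.snd).mul e2))
  have hFint : Integrable F (ν.prod (μ.prod μ)) := by
    refine ⟨hFm.aestronglyMeasurable, ?_⟩
    rw [hasFiniteIntegral_iff_enorm]
    rw [lintegral_prod_symm _ hFm.enorm.aemeasurable]
    have : ∫⁻ q : α × α, ∫⁻ s, ‖F (s, q)‖ₑ ∂ν ∂(μ.prod μ) ≤
        ∫⁻ q : α × α, (‖g q.1‖ₑ * (B2 * B1)) * ‖g q.2‖ₑ ∂(μ.prod μ) := by
      have hae : ∀ᵐ q ∂(μ.prod μ), (∀ s, ‖k q.2 s‖ₑ ≤ B1) ∧ ∫⁻ s, ‖k q.1 s‖ₑ ∂ν ≤ B2 := by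
        have e1 : ∀ᵐ q ∂(μ.prod μ), ∫⁻ s, ‖k q.1 s‖ₑ ∂ν ≤ B2 :=
          (Measure.quasiMeasurePreserving_fst).ae h2
        have e2 : ∀ᵐ q ∂(μ.prod μ), ∀ s, ‖k q.2 s‖ₑ ≤ B1 :=
          (Measure.quasiMeasurePreserving_snd).ae h1
        filter_upwards [e1, e2] with q h3 h4 using ⟨h4, h3⟩
      refine lintegral_mono_ae ?_
      filter_upwards [hae] with q hq
      calc ∫⁻ s, ‖F (s, q)‖ₑ ∂ν ≤ ∫⁻ s, (‖g q.1‖ₑ * ‖g q.2‖ₑ * B1) * ‖k q.1 s‖ₑ ∂ν := by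
            refine lintegral_mono fun s => ?_
            simp only [hF, enorm_mul]
            calc ‖g q.1‖ₑ * ‖k q.1 s‖ₑ * (‖g q.2‖ₑ * ‖k q.2 s‖ₑ)
                ≤ ‖g q.1‖ₑ * ‖k q.1 s‖ₑ * (‖g q.2‖ₑ * B1) := by
                  gcongr; exact hq.1 s
              _ = _ := by ring
        _ = (‖g q.1‖ₑ * ‖g q.2‖ₑ * B1) * ∫⁻ s, ‖k q.1 s‖ₑ ∂ν := by
            rw [lintegral_const_mul]
            exact (hk.comp (measurable_const.prodMk measurable_id)).enorm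
        _ ≤ (‖g q.1‖ₑ * ‖g q.2‖ₑ * B1) * B2 := by gcongr; exact hq.2
        _ = _ := by ring
    refine this.trans_lt ?_
    rw [lintegral_prod_mul (f := fun z => ‖g z‖ₑ * (B2 * B1)) (g := fun z => ‖g z‖ₑ)
      (hgm.enorm.mul measurable_const).aemeasurable hgm.enorm.aemeasurable]
    rw [lintegral_mul_const _ hgm.enorm]
    exact ENNReal.mul_lt_top (ENNReal.mul_lt_top hgfin.lt_top
      (ENNReal.mul_lt_top hB2.lt_top hB1.lt_top)) hgfin.lt_top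
  -- square as a double integral
  have hsq : ∀ s, (∫ z, g z * k z s ∂μ) ^ 2 = ∫ q, F (s, q) ∂(μ.prod μ) := by
    intro s
    rw [sq, ← integral_prod_mul (fun z => g z * k z s) (fun z => g z * k z s)]
  have hG2 : Integrable (fun s => (∫ z, g z * k z s ∂μ) ^ 2) ν := by
    simp_rw [hsq]
    exact hFint.integral_prod_left
  have hstep1 : ∫⁻ s, ‖∫ z, g z * k z s ∂μ‖ₑ ^ 2 ∂ν =
      ENNReal.ofReal (∫ s, (∫ z, g z * k z s ∂μ) ^ 2 ∂ν) := by
    rw [ofReal_integral_eq_lintegral_ofReal hG2 (Filter.Eventually.of_forall fun s => sq_nonneg _)]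
    refine lintegral_congr fun s => ?_
    rw [← enorm_pow, Real.enorm_eq_ofReal (sq_nonneg _)]
  have hstep2 : ∫ s, (∫ z, g z * k z s ∂μ) ^ 2 ∂ν =
      ∫ q : α × α, ∫ s, F (s, q) ∂ν ∂(μ.prod μ) := by
    simp_rw [hsq]
    exact integral_integral_swap hFint
  rw [hstep1, hstep2]
  have hstep3 : ENNReal.ofReal (∫ q : α × α, ∫ s, F (s, q) ∂ν ∂(μ.prod μ)) ≤
      ∫⁻ q : α × α, ‖g q.1‖ₑ * ‖g q.2‖ₑ * (b q.1 q.2 + b q.2 q.1) ∂(μ.prod μ) := by
    calc ENNReal.ofReal (∫ q : α × α, ∫ s, F (s, q) ∂ν ∂(μ.prod μ))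
        ≤ ‖∫ q : α × α, ∫ s, F (s, q) ∂ν ∂(μ.prod μ)‖ₑ := by
          rw [Real.enorm_eq_ofReal_abs]
          exact ENNReal.ofReal_le_ofReal (le_abs_self _)
      _ ≤ ∫⁻ q : α × α, ‖∫ s, F (s, q) ∂ν‖ₑ ∂(μ.prod μ) := enorm_integral_le_lintegral_enorm _
      _ ≤ _ := by
          refine lintegral_mono_ae ?_
          have hae : ∀ᵐ q ∂(μ.prod μ), ‖∫ s, k q.1 s * k q.2 s ∂ν‖ₑ ≤ b q.1 q.2 + b q.2 q.1 := by
            have hm : MeasurableSet {q : α × α | ‖∫ s, k q.1 s * k q.2 s ∂ν‖ₑ ≤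
                b q.1 q.2 + b q.2 q.1} := by
              have e1 : Measurable (fun q : α × α => ∫ s, k q.1 s * k q.2 s ∂ν) := by
                have : Measurable (fun p : (α × α) × β => k p.1.1 p.2 * k p.1.2 p.2) :=
                  (hk.comp (measurable_fst.fst.prodMk measurable_snd)).mul
                    (hk.comp (measurable_fst.snd.prodMk measurable_snd))
                exact (this.stronglyMeasurable.integral_prod_right (ν := ν)).measurable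
              have e2 : Measurable (fun q : α × α => b q.2 q.1) :=
                hb.comp measurable_swap
              exact measurableSet_le e1.enorm (hb.add e2)
            exact (Measure.ae_prod_iff_ae_ae hm).2 hκ
          filter_upwards [hae] with q hq
          have : ∫ s, F (s, q) ∂ν = (g q.1 * g q.2) * ∫ s, k q.1 s * k q.2 s ∂ν := by
            rw [← integral_const_mul]
            congr 1; ext s; simp only [hF]; ring
          rw [this, enorm_mul, enorm_mul]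
          gcongr
  refine hstep3.trans ?_
  have hsplit : ∫⁻ q : α × α, ‖g q.1‖ₑ * ‖g q.2‖ₑ * (b q.1 q.2 + b q.2 q.1) ∂(μ.prod μ) =
      ∫⁻ q : α × α, ‖g q.1‖ₑ * ‖g q.2‖ₑ * b q.1 q.2 ∂(μ.prod μ) +
      ∫⁻ q : α × α, ‖g q.1‖ₑ * ‖g q.2‖ₑ * b q.2 q.1 ∂(μ.prod μ) := by
    rw [← lintegral_add_left]
    · congr 1; ext q; ring
    · exact (((hgm.comp measurable_fst).enorm.mul (hgm.comp measurable_snd).enorm)).mul hb
  have hmb : Measurable (fun q : α × α => ‖g q.1‖ₑ * ‖g q.2‖ₑ * b q.1 q.2) :=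
    (((hgm.comp measurable_fst).enorm.mul (hgm.comp measurable_snd).enorm)).mul hb
  have hI : ∫⁻ q : α × α, ‖g q.1‖ₑ * ‖g q.2‖ₑ * b q.1 q.2 ∂(μ.prod μ) =
      ∫⁻ z', ‖g z'‖ₑ * ∫⁻ z, ‖g z‖ₑ * b z z' ∂μ ∂μ := by
    rw [lintegral_prod_symm _ hmb.aemeasurable]
    refine lintegral_congr fun z' => ?_
    rw [← lintegral_const_mul]
    · refine lintegral_congr fun z => ?_
      ring
    · exact hgm.enorm.mul (hb.comp (measurable_id.prodMk measurable_const))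
  have hI2 : ∫⁻ q : α × α, ‖g q.1‖ₑ * ‖g q.2‖ₑ * b q.2 q.1 ∂(μ.prod μ) =
      ∫⁻ z', ‖g z'‖ₑ * ∫⁻ z, ‖g z‖ₑ * b z z' ∂μ ∂μ := by
    have hmb2 : Measurable (fun q : α × α => ‖g q.1‖ₑ * ‖g q.2‖ₑ * b q.2 q.1) :=
      (((hgm.comp measurable_fst).enorm.mul (hgm.comp measurable_snd).enorm)).mul
        (hb.comp measurable_swap)
    rw [lintegral_prod _ hmb2.aemeasurable]
    refine lintegral_congr fun z' => ?_
    rw [← lintegral_const_mul]
    · refine lintegral_congr fun z => ?_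
      ring
    · exact hgm.enorm.mul (hb.comp (measurable_id.prodMk measurable_const))
  rw [hsplit, hI, hI2, two_mul]

end Vale.Agent.P112.H8
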