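import Vale.Agent.P112.H8.PairN
import Vale.Agent.P112.H8.T3
import Vale.Agent.P112.T.DefsN

/-!
# T3 with the frequency parameter `N`: the antichain estimate, constants uniform in `N`
-/

open MeasureTheory Set
open scoped ENNReal ContDiff

namespace Vale.Agent.P112.H8

open Vale.Agent.P112.T

variable {M : ℕ}

theorem stn3 (M a : ℕ) (C0 : ℝ) (hM : a + 2 ≤ M) (h1 : StN1 M C0) : StN3 M a C0 := by
  classical
  obtain ⟨C, hC, hT1'⟩ := h1
  refine ⟨2 * (3 * (C * 4 ^ (a+2))), by positivity, ?_⟩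
  intro N κ hκN τ u hu n E hE hd δ hδ hD g hg hg1
  have hN : 1 ≤ N := hκN.one_le
  have hT1 := hT1' N κ hκN
  obtain ⟨U, hU⟩ := hu.bdd
  set S := Un E n with hS
  have hSm : MeasurableSet S := Un_meas hE n
  set lev := levf E n with hlev
  have hlm : Measurable lev := levf_meas hE n
  have hlevn : ∀ z ∈ S, lev z < n := by
    rintro z ⟨j, hj, hz⟩
    rw [hlev, levf_eq hd hj hz]; exact hj
  have hDens : DensG N (gr τ) u volume S lev a δ := by
    rintro z1 ⟨j, hj, hz⟩ lam hlam th c h2 h3 i hi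
    have e : lev z1 = j := by rw [hlev, levf_eq hd hj hz]
    rw [e] at h2 hi
    have := hD j hj z1 hz lam hlam th c h2 h3 i hi
    refine this.trans (le_of_eq ?_)
    congr 1
    rw [one_div, inv_pow, div_eq_mul_inv]
  obtain ⟨B, hB, hk⟩ := k_bdd κ
  obtain ⟨B2, hB2, hk2⟩ := k_L1 κ U n
  -- the majorant
  set b : ℝ × ℝ → ℝ × ℝ → ℝ≥0∞ := fun z z' =>
    if lev z' ≤ lev z ∧ |z.1 - z'.1| ≤ 1 / 2 ^ lev z' ∧
      |off u z' z| ≤ 2 + |u z - u z'| / 2 ^ lev z then
    ENNReal.ofReal (C * 2 ^ lev z') * ENNReal.ofReal (((1 + N * |u z - u z'| / 2 ^ lev z) ^ M)⁻¹)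
    else 0 with hb
  have hp : Measurable (fun z : ℝ × ℝ => (2:ℝ) ^ (lev z)) :=
    (measurable_of_countable (fun m : ℕ => (2:ℝ)^m)).comp hlm
  have hum := hu.meas
  have hbm : Measurable (fun p : (ℝ × ℝ) × (ℝ × ℝ) => b p.1 p.2) := by
    rw [hb]
    have hp1 : Measurable (fun p : (ℝ × ℝ) × (ℝ × ℝ) => (2:ℝ) ^ (lev p.1)) :=
      hp.comp measurable_fst
    have hp2 : Measurable (fun p : (ℝ × ℝ) × (ℝ × ℝ) => (2:ℝ) ^ (lev p.2)) :=
      hp.comp measurable_snd
    have hu1 : Measurable (fun p : (ℝ × ℝ) × (ℝ × ℝ) => u p.1) := hum.comp measurable_fst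
    have hu2 : Measurable (fun p : (ℝ × ℝ) × (ℝ × ℝ) => u p.2) := hum.comp measurable_snd
    have hoff : Measurable (fun p : (ℝ × ℝ) × (ℝ × ℝ) => off u p.2 p.1) := by
      unfold off; fun_prop
    refine Measurable.ite ?_ ?_ measurable_const
    · have m1 : Measurable (fun p : (ℝ × ℝ) × (ℝ × ℝ) => |p.1.1 - p.2.1|) := by fun_prop
      have m2 : Measurable (fun p : (ℝ × ℝ) × (ℝ × ℝ) => (1:ℝ) / 2 ^ lev p.2) := by fun_prop
      have m3 : Measurable (fun p : (ℝ × ℝ) × (ℝ × ℝ) => |off u p.2 p.1|) := by fun_prop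
      have m4 : Measurable (fun p : (ℝ × ℝ) × (ℝ × ℝ) => 2 + |u p.1 - u p.2| / 2 ^ lev p.1) := by
        fun_prop
      exact MeasurableSet.inter (measurableSet_le (hlm.comp measurable_snd)
        (hlm.comp measurable_fst)) (MeasurableSet.inter (measurableSet_le m1 m2)
        (measurableSet_le m3 m4))
    · fun_prop
  have hcase : ∀ z ∈ S, ∀ z' ∈ S, lev z' ≤ lev z →
      ‖∫ ζ, κ.k (lev z) (u z) z ζ * κ.k (lev z') (u z') z' ζ‖ₑ ≤ b z z' := by
    intro z hz z' hz' hle
    obtain ⟨t1, t2⟩ := hT1 (lev z) (lev z') hle (u z) (u z') z z'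
    by_cases h0 : κ.kap (lev z) (lev z') (u z) (u z') z z' = 0
    · unfold Ker.kap at h0
      rw [h0]; simp
    · obtain ⟨t3, t4⟩ := t2 h0
      have hcond : lev z' ≤ lev z ∧ |z.1 - z'.1| ≤ 1 / 2 ^ lev z' ∧
        |off u z' z| ≤ 2 + |u z - u z'| / 2 ^ lev z := ⟨hle, t3, t4⟩
      simp only [hb]
      rw [if_pos hcond, Real.enorm_eq_ofReal_abs, ← ENNReal.ofReal_mul (by positivity)]
      apply ENNReal.ofReal_le_ofReal
      unfold Ker.kap at t1
      refine t1.trans (le_of_eq ?_)
      rw [div_eq_mul_inv]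
  have hκ : ∀ᵐ z ∂(volume.restrict S), ∀ᵐ z' ∂(volume.restrict S),
      ‖∫ ζ, κ.k (lev z) (u z) z ζ * κ.k (lev z') (u z') z' ζ‖ₑ ≤ b z z' + b z' z := by
    filter_upwards [ae_restrict_mem hSm] with z hz
    filter_upwards [ae_restrict_mem hSm] with z' hz'
    rcases le_total (lev z') (lev z) with hle | hle
    · exact (hcase z hz z' hz' hle).trans le_self_add
    · have : ∫ ζ, κ.k (lev z) (u z) z ζ * κ.k (lev z') (u z') z' ζ =
          ∫ ζ, κ.k (lev z') (u z') z' ζ * κ.k (lev z) (u z) z ζ := by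
        congr 1; ext ζ; ring
      rw [this]
      exact (hcase z' hz' z hz hle).trans le_add_self
  have hmain := tts (volume.restrict S) volume (fun z ζ => κ.k (lev z) (u z) z ζ)
    (k_meas κ (hlm.comp measurable_fst) (hum.comp measurable_fst) measurable_fst measurable_snd)
    (ENNReal.ofReal (B * 2 ^ n)) B2 ENNReal.ofReal_ne_top hB2
    (by
      filter_upwards [ae_restrict_mem hSm] with z hz ζ
      rw [Real.enorm_eq_ofReal_abs]
      apply ENNReal.ofReal_le_ofReal
      refine (hk _ _ _ _).trans ?_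
      have : (2:ℝ)^(lev z) ≤ 2^n := pow_le_pow_right₀ (by norm_num) (hlevn z hz).le
      gcongr)
    (by
      filter_upwards [ae_restrict_mem hSm] with z hz
      exact hk2 (lev z) (hlevn z hz).le (u z) (hU z) z)
    g hg.meas (nice_int hg).integrableOn b hbm hκ
  -- the row sums
  have hrow : ∀ z' ∈ S, ∫⁻ z in S, ‖g z‖ₑ * b z z' ≤
      ENNReal.ofReal (3 * (C * 4 ^ (a+2)) * δ) := by
    intro z' hz'
    set Z : ℝ → Set (ℝ × ℝ) := fun x0 => {z | z ∈ S ∧ lev z' ≤ lev z ∧
      (gr τ).q (lev z') z.1 = (gr τ).q (lev z') x0 ∧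
      |off u z' z| ≤ 2 + |u z - u z'| / 2 ^ (lev z)} with hZ
    have hps : ∀ x0, ∫⁻ z in Z x0, ENNReal.ofReal (((1 + N * |u z - u z'| / 2 ^ (lev z)) ^ M)⁻¹) ≤
        ENNReal.ofReal (4 ^ (a+2) * δ * (1/2) ^ (lev z')) := fun x0 =>
      pair_sumN N hN (gr τ) u hum volume S hSm lev hlm n a M (by omega) δ hδ.le hlevn hDens z' x0
    have hoff : Measurable (fun z => off u z' z) := by unfold off; fun_prop
    have hZm : ∀ x0, MeasurableSet (Z x0) := by
      intro x0
      have h1 : MeasurableSet {z : ℝ × ℝ | lev z' ≤ lev z} :=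
        hlm (measurableSet_Ici (a := lev z'))
      have h2 : MeasurableSet {z : ℝ × ℝ | (gr τ).q (lev z') z.1 = (gr τ).q (lev z') x0} :=
        (((gr τ).meas _).comp measurable_fst) (measurableSet_singleton _)
      have h3 : MeasurableSet {z : ℝ × ℝ | |off u z' z| ≤ 2 + |u z - u z'| / 2 ^ (lev z)} :=
        measurableSet_le (by fun_prop) (by fun_prop)
      exact hSm.inter (h1.inter (h2.inter h3))
    set f : ℝ × ℝ → ℝ≥0∞ := fun z => ENNReal.ofReal (((1 + N * |u z - u z'| / 2 ^ (lev z)) ^ M)⁻¹)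
      with hf
    have hfm : Measurable f := by rw [hf]; fun_prop
    calc ∫⁻ z in S, ‖g z‖ₑ * b z z'
        ≤ ∫⁻ z, ENNReal.ofReal (C * 2 ^ lev z') * ((Z z'.1).indicator f z +
          (Z (z'.1 - 1 / 2 ^ lev z')).indicator f z + (Z (z'.1 + 1 / 2 ^ lev z')).indicator f z) := by
          rw [← lintegral_indicator hSm]
          refine lintegral_mono fun z => ?_
          by_cases hzS : z ∈ S
          · rw [indicator_of_mem hzS]
            have hg' : ‖g z‖ₑ ≤ 1 := by
              rw [Real.enorm_eq_ofReal_abs]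
              calc ENNReal.ofReal |g z| ≤ ENNReal.ofReal 1 := ENNReal.ofReal_le_ofReal (hg1 z)
                _ = 1 := by simp
            calc ‖g z‖ₑ * b z z' ≤ 1 * b z z' := by gcongr
              _ = b z z' := one_mul _
              _ ≤ _ := by
                simp only [hb]
                split_ifs with hc
                · obtain ⟨c1, c2, c3⟩ := hc
                  have hmem : ∀ x0, (gr τ).q (lev z') z.1 = (gr τ).q (lev z') x0 → z ∈ Z x0 :=
                    fun x0 hx => ⟨hzS, c1, hx, c3⟩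
                  gcongr
                  rcases q_near τ (lev z') z.1 z'.1 c2 with h | h | h
                  · rw [indicator_of_mem (hmem _ h)]
                    exact le_add_right le_self_add
                  · rw [indicator_of_mem (hmem _ h) (f := f)]
                    exact le_add_right le_add_self
                  · rw [indicator_of_mem (hmem _ h) (f := f)]
                    exact le_add_self
                · exact zero_le
          · rw [indicator_of_notMem hzS]; exact zero_le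
      _ = ENNReal.ofReal (C * 2 ^ lev z') * ((∫⁻ z in Z z'.1, f z) +
          (∫⁻ z in Z (z'.1 - 1 / 2 ^ lev z'), f z) +
          (∫⁻ z in Z (z'.1 + 1 / 2 ^ lev z'), f z)) := by
          have m1 := hfm.indicator (hZm z'.1)
          have m2 := hfm.indicator (hZm (z'.1 - 1 / 2 ^ lev z'))
          have m3 := hfm.indicator (hZm (z'.1 + 1 / 2 ^ lev z'))
          have m12 : Measurable (fun z => (Z z'.1).indicator f z +
            (Z (z'.1 - 1 / 2 ^ lev z')).indicator f z) := m1.add m2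
          have m123 : Measurable (fun z => (Z z'.1).indicator f z +
            (Z (z'.1 - 1 / 2 ^ lev z')).indicator f z +
            (Z (z'.1 + 1 / 2 ^ lev z')).indicator f z) := m12.add m3
          rw [lintegral_const_mul _ m123, lintegral_add_left m12, lintegral_add_left m1,
            lintegral_indicator (hZm _), lintegral_indicator (hZm _), lintegral_indicator (hZm _)]
      _ ≤ ENNReal.ofReal (C * 2 ^ lev z') * (ENNReal.ofReal (4 ^ (a+2) * δ * (1/2) ^ (lev z')) +
          ENNReal.ofReal (4 ^ (a+2) * δ * (1/2) ^ (lev z')) +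
          ENNReal.ofReal (4 ^ (a+2) * δ * (1/2) ^ (lev z'))) := by
          gcongr <;> exact hps _
      _ = ENNReal.ofReal (3 * (C * 4 ^ (a+2)) * δ) := by
          rw [← ENNReal.ofReal_add (by positivity) (by positivity),
            ← ENNReal.ofReal_add (by positivity) (by positivity),
            ← ENNReal.ofReal_mul (by positivity)]
          congr 1
          have : (2:ℝ) ^ lev z' * (1/2) ^ lev z' = 1 := by
            rw [← mul_pow]; norm_num
          linear_combination (3 * C * 4^(a+2) * δ) * this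
  have hfin : ∫⁻ ζ, ‖κ.FS u g E n ζ‖ₑ ^ 2 ≤
      ENNReal.ofReal (2 * (3 * (C * 4 ^ (a+2))) * δ * ∫ z in S, |g z|) := by
    calc ∫⁻ ζ, ‖κ.FS u g E n ζ‖ₑ ^ 2
        = ∫⁻ ζ, ‖∫ z in S, g z * κ.k (lev z) (u z) z ζ‖ₑ ^ 2 := by
          congr 1; ext ζ; rw [FS_eq κ hu hg hE hd]
      _ ≤ 2 * ∫⁻ z' in S, ‖g z'‖ₑ * ∫⁻ z in S, ‖g z‖ₑ * b z z' := hmain
      _ ≤ 2 * ∫⁻ z' in S, ‖g z'‖ₑ * ENNReal.ofReal (3 * (C * 4 ^ (a+2)) * δ) := by
          gcongr 2 * ?_
          refine lintegral_mono_ae ?_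
          filter_upwards [ae_restrict_mem hSm] with z' hz'
          gcongr
          exact hrow z' hz'
      _ = _ := by
          rw [lintegral_mul_const _ hg.meas.enorm]
          have : ∫⁻ z' in S, ‖g z'‖ₑ = ENNReal.ofReal (∫ z in S, |g z|) := by
            rw [ofReal_integral_eq_lintegral_ofReal (nice_int hg).integrableOn.abs
              (Filter.Eventually.of_forall fun z => abs_nonneg _)]
            refine lintegral_congr fun z => ?_
            rw [Real.enorm_eq_ofReal_abs]
          rw [this, ← ENNReal.ofReal_mul (integral_nonneg fun z => abs_nonneg _),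
            show (2:ℝ≥0∞) = ENNReal.ofReal 2 by simp, ← ENNReal.ofReal_mul (by norm_num)]
          congr 1; ring
  have hRHS : 0 ≤ 2 * (3 * (C * 4 ^ (a+2))) * δ * ∫ z in S, |g z| := by
    have : 0 ≤ ∫ z in S, |g z| := integral_nonneg fun z => abs_nonneg _
    positivity
  by_cases hi : Integrable (fun ζ => (κ.FS u g E n ζ) ^ 2)
  · have : ENNReal.ofReal (∫ ζ, (κ.FS u g E n ζ) ^ 2) = ∫⁻ ζ, ‖κ.FS u g E n ζ‖ₑ ^ 2 := by
      rw [ofReal_integral_eq_lintegral_ofReal hi (Filter.Eventually.of_forall fun z => sq_nonneg _)]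
      refine lintegral_congr fun s => ?_
      rw [← enorm_pow, Real.enorm_eq_ofReal (sq_nonneg _)]
    rw [← this] at hfin
    exact (ENNReal.ofReal_le_ofReal_iff hRHS).1 hfin
  · rw [integral_undef hi]; exact hRHS

end Vale.Agent.P112.H8
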