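import Vale.Agent.P112.F30.Defs
import Vale.Agent.P112.H8.GridQ

/-!
# (FT): counting the trees of one subforest
-/

open MeasureTheory Set
open scoped ENNReal

namespace Vale.Agent.P112.H8

open Vale.Agent.P112.T Vale.Agent.P112.F30

/-- separated reals in an interval -/
theorem card_sep {ι : Type*} (F : Finset ι) (f : ι → ℝ) {d R a : ℝ} (hd : 0 < d) (hR0 : 0 ≤ R)
    (hs : ∀ i ∈ F, ∀ i' ∈ F, i ≠ i' → d < |f i - f i'|) (hR : ∀ i ∈ F, |f i - a| ≤ R) :
    (F.card : ℝ) ≤ 2 * R / d + 1 := by
  classical
  have hinj : Set.InjOn (fun i => ⌊(f i - (a - R)) / d⌋₊) F := by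
    intro i hi i' hi' h
    by_contra hne
    have h1 := hs i hi i' hi' hne
    have hnn : ∀ i ∈ F, 0 ≤ (f i - (a - R)) / d := by
      intro i hi
      have := abs_le.1 (hR i hi)
      apply div_nonneg _ hd.le
      linarith [this.1]
    simp only at h
    have a1 := Nat.floor_le (hnn i hi)
    have a2 := Nat.lt_floor_add_one ((f i - (a - R)) / d)
    have b1 := Nat.floor_le (hnn i' hi')
    have b2 := Nat.lt_floor_add_one ((f i' - (a - R)) / d)
    rw [h] at a1 a2
    have h3 : |(f i - (a - R)) / d - (f i' - (a - R)) / d| < 1 := by
      rw [abs_lt]; constructor <;> linarith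
    have h4 : (f i - (a - R)) / d - (f i' - (a - R)) / d = (f i - f i') / d := by ring
    rw [h4, abs_div, abs_of_pos hd, div_lt_one hd] at h3
    linarith
  have hmaps : ∀ i ∈ F, ⌊(f i - (a - R)) / d⌋₊ ∈ Finset.range (⌊2 * R / d⌋₊ + 1) := by
    intro i hi
    rw [Finset.mem_range, Nat.lt_add_one_iff]
    apply Nat.floor_le_floor
    have := abs_le.1 (hR i hi)
    gcongr
    linarith [this.2]
  have hcard := Finset.card_le_card_of_injOn _ hmaps hinj
  rw [Finset.card_range] at hcard
  have h5 : (F.card : ℝ) ≤ (⌊2 * R / d⌋₊ : ℝ) + 1 := by exact_mod_cast hcard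
  have h6 := Nat.floor_le (show 0 ≤ 2 * R / d by positivity)
  linarith

theorem q_dist {τ : ℝ} {i : ℕ} {x x' : ℝ} (h : q τ i x = q τ i x') : |x - x'| ≤ 1 / 2 ^ i := by
  obtain ⟨a1, a2⟩ := (q_eq_iff τ i x _).1 h
  obtain ⟨b1, b2⟩ := (q_eq_iff τ i x' _).1 rfl
  have h2 : (0:ℝ) < 2^i := by positivity
  rw [le_div_iff₀ h2]
  have e7 : |x - x'| * 2^i = |2^i * (x - x')| := by
    rw [abs_mul, abs_of_pos h2]; ring
  rw [e7, abs_le]
  constructor <;> nlinarith

theorem stFT : StFT := by
  classical
  refine ⟨8, by norm_num, ?_⟩
  intro u _ κ _ M S H A0 hS hH hHA ι _ τ top lev htop hnear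
  have hH0 : 0 < H := by linarith
  have hA0 : 0 < A0 := by linarith
  choose c hc1 hc2 hc3 hc4 using htop
  -- the count at one abscissa for one top `m`
  have hcount : ∀ m x, ((Finset.univ.filter fun i => c i = m ∧ q τ (lev i) x =
      q τ (lev i) (top i).1).card : ℝ) ≤ 2 * (S + A0) / H := by
    intro m x
    have h := card_sep (Finset.univ.filter fun i => c i = m ∧ q τ (lev i) x =
      q τ (lev i) (top i).1) (fun i => ln u (top i) x) (d := 2 * H + 8) (R := S + A0)
      (a := M.line m x) (by linarith) (by linarith) ?_ ?_
    · refine h.trans ?_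
      have h1 : 2 * (S + A0) / (2 * H + 8) ≤ (S + A0) / H := by
        rw [div_le_div_iff₀ (by linarith) hH0]
        nlinarith
      have h2 : 1 ≤ (S + A0) / H := by
        rw [le_div_iff₀ hH0]; linarith
      have h3 : 2 * (S + A0) / H = (S + A0) / H + (S + A0) / H := by ring
      linarith
    · intro i hi i' hi' hne
      simp only [Finset.mem_filter, Finset.mem_univ, true_and] at hi hi'
      by_contra hcon
      rw [not_lt] at hcon
      apply hnear i i' hne
      refine ⟨?_, x, hi.2, hi'.2, hcon⟩
      have a1 := hc3 i
      have a2 := hc3 i'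
      rw [hi.1] at a1
      rw [hi'.1, abs_sub_comm] at a2
      have a3 := abs_sub_le (u (top i)) (M.s m) (u (top i'))
      have b1 : (2:ℝ) ^ lev i ≤ 2 ^ max (lev i) (lev i') :=
        pow_le_pow_right₀ (by norm_num) (le_max_left _ _)
      have b2 : (2:ℝ) ^ lev i' ≤ 2 ^ max (lev i) (lev i') :=
        pow_le_pow_right₀ (by norm_num) (le_max_right _ _)
      nlinarith
    · intro i hi
      simp only [Finset.mem_filter, Finset.mem_univ, true_and] at hi
      have a1 := hc3 i
      have a4 := hc4 i
      rw [hi.1] at a1 a4
      have hx := q_dist hi.2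
      have e : ln u (top i) x - M.line m x = ((top i).2 - M.line m (top i).1) +
          (u (top i) - M.s m) * (x - (top i).1) := by
        unfold ln Tops.line; ring
      rw [e]
      refine (abs_add_le _ _).trans ?_
      have : |(u (top i) - M.s m) * (x - (top i).1)| ≤ S := by
        rw [abs_mul]
        calc |u (top i) - M.s m| * |x - (top i).1| ≤ (S * 2 ^ lev i) * (1 / 2 ^ lev i) := by
              gcongr
          _ = S := by field_simp
      linarith
  -- sum for one `m`
  have hm : ∀ m, ∑ i ∈ Finset.univ.filter (fun i => c i = m), ENNReal.ofReal ((1/2) ^ lev i) ≤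
      ENNReal.ofReal (8 * (S + A0) / H * (1/2) ^ M.j m) := by
    intro m
    set C : ι → Set ℝ := fun i => {x | q τ (lev i) x = q τ (lev i) (top i).1} with hC
    have hCm : ∀ i, MeasurableSet (C i) := fun i =>
      (q_meas τ (lev i)) (measurableSet_singleton _)
    set J : Set ℝ := Icc (M.x m - 2 / 2 ^ M.j m) (M.x m + 2 / 2 ^ M.j m) with hJ
    calc ∑ i ∈ Finset.univ.filter (fun i => c i = m), ENNReal.ofReal ((1/2) ^ lev i)
        = ∑ i ∈ Finset.univ.filter (fun i => c i = m), ∫⁻ x, (C i).indicator 1 x := by
          refine Finset.sum_congr rfl fun i _ => ?_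
          rw [lintegral_indicator_one (hCm i), hC, q_vol]
      _ = ∫⁻ x, ∑ i ∈ Finset.univ.filter (fun i => c i = m), (C i).indicator 1 x := by
          rw [lintegral_finsetSum]
          exact fun i _ => measurable_one.indicator (hCm i)
      _ ≤ ∫⁻ x, J.indicator (fun _ => ENNReal.ofReal (2 * (S + A0) / H)) x := by
          refine lintegral_mono fun x => ?_
          simp only
          by_cases hx : x ∈ J
          · rw [indicator_of_mem hx]
            have e : ∑ i ∈ Finset.univ.filter (fun i => c i = m),
                (C i).indicator (1 : ℝ → ℝ≥0∞) x =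
                ((Finset.univ.filter fun i => c i = m ∧ q τ (lev i) x =
                  q τ (lev i) (top i).1).card : ℝ≥0∞) := by
              rw [Finset.card_eq_sum_ones, Nat.cast_sum, ← Finset.filter_filter,
                Finset.sum_filter (s := Finset.univ.filter (fun i => c i = m))]
              refine Finset.sum_congr rfl fun i _ => ?_
              by_cases h : x ∈ C i
              · rw [indicator_of_mem h, if_pos (by exact h)]; simp
              · rw [indicator_of_notMem h, if_neg (by exact h)]
            rw [e, ← ENNReal.ofReal_natCast]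
            exact ENNReal.ofReal_le_ofReal (hcount m x)
          · rw [indicator_of_notMem hx]
            have : ∑ i ∈ Finset.univ.filter (fun i => c i = m),
                (C i).indicator (1 : ℝ → ℝ≥0∞) x = 0 := by
              refine Finset.sum_eq_zero fun i hi => ?_
              simp only [Finset.mem_filter, Finset.mem_univ, true_and] at hi
              rw [indicator_of_notMem]
              intro hxi
              apply hx
              have h1 := q_dist (show q τ (lev i) x = q τ (lev i) (top i).1 from hxi)
              have h2 := hc2 i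
              rw [hi] at h2
              have h3 : (1:ℝ) / 2 ^ lev i ≤ 1 / 2 ^ M.j m := by
                apply one_div_le_one_div_of_le (by positivity)
                apply pow_le_pow_right₀ (by norm_num)
                have := hc1 i
                rwa [hi] at this
              have h4 := abs_sub_le x (top i).1 (M.x m)
              have h5 : |x - M.x m| ≤ 2 / 2 ^ M.j m := by
                have : (2:ℝ) / 2 ^ M.j m = 1 / 2 ^ M.j m + 1 / 2 ^ M.j m := by ring
                linarith
              rw [abs_le] at h5
              rw [hJ, mem_Icc]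
              constructor <;> linarith [h5.1, h5.2]
            rw [this]
      _ = _ := by
          rw [lintegral_indicator measurableSet_Icc, lintegral_const,
            Measure.restrict_apply_univ, Real.volume_Icc,
            ← ENNReal.ofReal_mul (by positivity)]
          congr 1
          rw [one_div, inv_pow]
          field_simp
          ring
  -- total
  have htot : ENNReal.ofReal (∑ i, (1/2 : ℝ) ^ lev i) ≤
      ENNReal.ofReal (8 * (S + A0) / H * ∑ m, (1/2 : ℝ) ^ M.j m) := by
    rw [ENNReal.ofReal_sum_of_nonneg (fun i _ => by positivity), Finset.mul_sum,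
      ENNReal.ofReal_sum_of_nonneg (fun i _ => by positivity)]
    rw [← Finset.sum_fiberwise Finset.univ c]
    exact Finset.sum_le_sum fun m _ => hm m
  exact (ENNReal.ofReal_le_ofReal_iff (by positivity)).1 htot

end Vale.Agent.P112.H8
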