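import Vale.Agent.P112.H8.Bx0C

/-!
# `[BOX]` of `H646/GainDefs.lean`: `StBox0`, assembly
-/

open MeasureTheory Set
open scoped ENNReal

noncomputable section

namespace Vale.Agent.P112.H8.B0

open Vale.Agent.P112.T Vale.Agent.P112.T580 Vale.Agent.P112.H371 Vale.Agent.P112.H646
  Vale.Agent.P112.H646.Gain

variable {ι : Type} {u : ℝ × ℝ → ℝ} {S Q θ H0 : ℝ} {n : ℕ} {s : ι → ℝ}
  {E : ι → ℕ → Set (ℝ × ℝ)}

section

variable (hh : 0 < θ * H0)

/-- the boxes of the level `a` -/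
def P (r a : ℕ) (p : {p // p ∈ BSet s θ H0 S E n r}) : Prop :=
  1 ≤ oc hh r p ∧ lv H0 (oc hh r p) = a

/-- the boxes of the level `a` -/
def Xa (s : ι → ℝ) (hh : 0 < θ * H0) (S : ℝ) (E : ι → ℕ → Set (ℝ × ℝ)) (n r a : ℕ) :
    Bxs ι {p : {p // p ∈ BSet s θ H0 S E n r} // P hh r a p} :=
  (bxs s hh S E n r).res (P hh r a)

theorem quiet (h : ∀ i j, n ≤ j → E i j = ∅) (r N0 : ℕ) :
    Quiet s E S H0 θ r N0 (fun a => {p : {p // p ∈ BSet s θ H0 S E n r} // P hh r (a : ℕ) p})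
      (fun a => Xa s hh S E n r (a : ℕ)) := by
  rintro a ⟨p, hp⟩ j hj z hz h1 h2 x hx
  have hs : Sel (Er (s p.1.1) θ H0 S (E p.1.1) p.1.2.2.2) n r p.1.2.1 p.1.2.2.1 := p.2
  have hx' : q 0 p.1.2.1 x = p.1.2.2.1 := (mem_cell hh r p x).1 hx
  have hjn : j < n := by
    by_contra hc
    have hz0 : z ∈ E p.1.1 j := hz
    rw [h p.1.1 j (not_lt.mp hc)] at hz0
    exact absurd hz0 (notMem_empty z)
  have hm : p.1.2.1 < j + r := by
    have hj' : (1:ℝ) / 2 ^ j < 2 ^ r * (1 / 2 ^ p.1.2.1) := hj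
    rw [mul_one_div, div_lt_div_iff₀ (by positivity) (by positivity), one_mul, ← pow_add] at hj'
    have := (pow_lt_pow_iff_right₀ (by norm_num : (1:ℝ) < 2)).1 hj'
    omega
  have hz' : z ∈ Er (s p.1.1) θ H0 S (E p.1.1) p.1.2.2.2 j := ⟨hz, h1, h2⟩
  exact hs.2.1 j hm hjn z hz' x hx'

variable [Fintype ι]

theorem boxes {M : ℕ} (κ : Ker M) {g : ℝ × ℝ → ℝ} (h : SepTrees u S Q n s E) {r : ℕ} (hr : 4 ≤ r)
    (hS : 0 ≤ S) (hH : 1 < H0) (hQ : 0 ≤ Q)
    (hD : 2 * (H0 + 2 * (θ * H0) + (3 + S)) + 11 / 16 * Q ≤ Q) :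
    Boxes s E S Q H0 θ r (tg κ u g n s E) (num H0)
      (fun a => {p : {p // p ∈ BSet s θ H0 S E n r} // P hh r (a : ℕ) p})
      (fun a => Xa s hh S E n r (a : ℕ)) where
  s_eq := fun _ => rfl
  disj := fun _ => Bxs.res_disj (bxs_disj hh r) _
  lev := by
    rintro i w a a' ⟨k, hk, hw⟩ ⟨k', hk', hw'⟩
    have hkk : k.1 = k'.1 := by
      by_contra hne
      have h1 := bxs_disj hh r k.1 k'.1 (hk.trans hk'.symm) hne
      exact Set.disjoint_left.mp h1 hw hw'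
    have h1 := k.2.2
    have h2 := k'.2.2
    rw [hkk] at h1
    exact Fin.ext (h1.symm.trans h2)
  height := fun _ _ => rfl
  len := by
    rintro a k
    have hs : Sel (Er (s k.1.1.1) θ H0 S (E k.1.1.1) k.1.1.2.2.2) n r k.1.1.2.1 k.1.1.2.2.1 := k.1.2
    obtain ⟨j, _, hj, _⟩ := hs.le_level
    have h1 : (1:ℝ) / 2 ^ k.1.1.2.1 ≤ 1 / 2 ^ r := by
      apply one_div_le_one_div_of_le (by positivity)
      exact pow_le_pow_right₀ (by norm_num) (by omega)
    exact h1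
  out := by
    intro i w hw t ht
    by_contra hne
    obtain ⟨j, hj, z, hz, h1, h2⟩ := near h hne
    obtain ⟨p, hp, hwp⟩ := mem_some hh r (by omega) hS i w ht hj hz h1 h2
    subst hp
    have hx := (mem_cell hh r p w.1).1 hwp.1
    have h3 := one_le_oc hh hH hS hx (Ioc_win hh hwp ht) hj hz h1 h2
    exact hw ⟨lv H0 (oc hh r p), lv_lt hH h3⟩ ⟨⟨p, h3, rfl⟩, rfl, hwp⟩
  occ := by
    rintro a ⟨p, hp⟩ w hw
    have hw' : w ∈ (bxs s hh S E n r).box p := hw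
    have h5 : volume {t | t ∈ Ioc w.2 (w.2 + H0) ∧ tg κ u g n s E p.1.1 (w.1, t) ≠ 0} ≤
        ENNReal.ofReal (2 * H0 * (1 / 2) ^ lv H0 (oc hh r p)) := by
      by_cases h0 : lv H0 (oc hh r p) = 0
      · rw [h0, pow_zero, mul_one]
        refine le_trans (measure_mono (t := Ioc w.2 (w.2 + H0)) fun t ht => ht.1) ?_
        rw [Real.volume_Ioc]
        exact ENNReal.ofReal_le_ofReal (by linarith)
      · refine le_trans ?_ (le_lv h0)
        exact measure_mono (sub_oc hh h hS hw')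
    have h6 := hp.2
    rw [h6] at h5
    exact h5
  low := by
    rintro a ⟨p, hp⟩
    have h5 := lv_mem hH hp.1
    have h6 := hp.2
    rw [h6] at h5
    exact h5
  sep := by
    rintro a ⟨p, hp1, hp2⟩ ⟨p', hp1', hp2'⟩ hne hb
    have h1 := sp hh h hr (by linarith) hQ hD p p' hne hb
    refine le_trans ?_ h1
    apply div_le_div_of_nonneg_left hQ (by positivity)
    exact pow_le_pow_right₀ (by norm_num) (by omega)
  num := num_le hH

end

/-- `[BOX]`, first part. -/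
theorem stBox0 {M : ℕ} (κ : Ker M) : StBox0 κ := by
  refine ⟨48, by norm_num, ?_⟩
  intro u hu n g hg hg1 S Q H0 θ r hS hQ hH hSH hθ hθ1 hr ι _ s E h
  have hH0 : 0 < H0 := by linarith
  have hh : 0 < θ * H0 := mul_pos hθ hH0
  have hθH : θ * H0 ≤ H0 := by nlinarith
  have hr4 : 4 ≤ r := by
    have : (4:ℝ) ≤ r := by linarith
    exact_mod_cast this
  have : Finite {p // p ∈ BSet s θ H0 S E n r} := (fin h hθ hH0 r).to_subtype
  exact ⟨num H0, fun a => {p : {p // p ∈ BSet s θ H0 S E n r} // P hh r (a : ℕ) p},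
    fun a => Fintype.ofFinite _, fun a => Xa s hh S E n r (a : ℕ),
    boxes hh κ h hr4 (by linarith) hH (by linarith) (by linarith),
    quiet hh h.lt r (num H0)⟩

end Vale.Agent.P112.H8.B0
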