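import Vale.Agent.P112.H8.StepC

/-!
# The step systems of the bands: block (u1) of [H-USE], final form
-/

open MeasureTheory Set
open scoped ENNReal

noncomputable section

namespace Vale.Agent.P112.H8

open Vale.Agent.P112.H371 Vale.Agent.P112.H646

variable {ι κ : Type}

namespace Bxs

/-- the boxes of the band `b` with non zero value -/
def Kb (X : Bxs ι κ) (H : ℝ) (g : ι → ℝ × ℝ → ℂ) (b : ℤ) : Type := {k : κ // X.val H g b k ≠ 0}

noncomputable instance [Fintype κ] (X : Bxs ι κ) (H : ℝ) (g : ι → ℝ × ℝ → ℂ) (b : ℤ) :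
    Fintype (X.Kb H g b) := by
  classical
  unfold Kb
  infer_instance

theorem eb_ne {H : ℝ} (hH : 0 < H) {b : ℤ} (hb : b ≠ 0) : eb H b ≠ 0 := by
  unfold eb
  have : (b : ℝ) ≠ 0 := by exact_mod_cast hb
  have := Real.pi_ne_zero
  positivity

variable [Fintype ι] [Fintype κ]

/-- the step system of the band `b` -/
def sys (X : Bxs ι κ) {H : ℝ} (hH : 0 < H) (g : ι → ℝ × ℝ → ℂ) {b : ℤ} (hb : b ≠ 0) :
    Sys ι (X.Kb H g b) where
  s := X.s
  η := -eb H b
  tb := fun k => X.tb k.1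
  x0 := fun k => X.x0 k.1
  lam := fun k => X.lam k.1
  y0 := fun k => X.y0 k.1
  h := fun k => X.h k.1
  val := fun k => X.val H g b k.1
  lam_pos := fun k => X.lam_pos k.1
  h_pos := fun k => X.h_pos k.1
  val_ne := fun k => k.2
  η_ne := neg_ne_zero.mpr (eb_ne hH hb)

theorem mem_sys_bx (X : Bxs ι κ) {H : ℝ} (hH : 0 < H) (g : ι → ℝ × ℝ → ℂ) {b : ℤ} (hb : b ≠ 0)
    (k : X.Kb H g b) (z : ℝ × ℝ) :
    z ∈ (X.sys hH g hb).bx 0 k ↔ X.tilt (X.tb k.1) z ∈ X.box k.1 := by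
  simp only [Sys.bx, sys, tilt, box, mem_prod, mem_Ico, mem_ofPred_eq, zero_mul, sub_zero, add_zero]
  tauto

theorem sys_disj {X : Bxs ι κ} (hX : X.Disj) {H : ℝ} (hH : 0 < H) (g : ι → ℝ × ℝ → ℂ) {b : ℤ}
    (hb : b ≠ 0) : (X.sys hH g hb).Disj := by
  intro k k' h hne
  rw [Set.disjoint_left]
  intro z hz hz'
  rw [mem_sys_bx] at hz hz'
  have h' : X.tb k.1 = X.tb k'.1 := h
  rw [← h'] at hz'
  exact Set.disjoint_left.mp (hX k.1 k'.1 h' (fun hc => hne (Subtype.ext hc))) hz hz'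

theorem sys_a (X : Bxs ι κ) {H : ℝ} (hH : 0 < H) (g : ι → ℝ × ℝ → ℂ) {b : ℤ}
    (hb : b ≠ 0) (i : ι) (z : ℝ × ℝ) : (X.sys hH g hb).a i z = X.at' H g b i (X.tilt i z) := by
  classical
  have h1 : X.at' H g b i (X.tilt i z) = ∑ k ∈ Finset.univ.filter (fun k => X.val H g b k ≠ 0),
      if X.tb k = i ∧ X.tilt i z ∈ X.box k then X.val H g b k else 0 := by
    rw [at', Finset.sum_filter_of_ne]
    intro k _ hk hc
    apply hk
    simp [hc]
  rw [h1]
  have h2 : (X.sys hH g hb).a i z = ∑ k : X.Kb H g b,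
      if X.tb k.1 = i ∧ X.tilt i z ∈ X.box k.1 then X.val H g b k.1 else 0 := by
    rw [Sys.a]
    apply Finset.sum_congr rfl
    intro k _
    have : ((X.sys hH g hb).tb k = i ∧ z ∈ (X.sys hH g hb).bx 0 k) ↔
        (X.tb k.1 = i ∧ X.tilt i z ∈ X.box k.1) := by
      rw [mem_sys_bx]
      constructor
      · rintro ⟨h3, h4⟩
        have h3' : X.tb k.1 = i := h3
        rw [h3'] at h4
        exact ⟨h3', h4⟩
      · rintro ⟨h3, h4⟩
        refine ⟨h3, ?_⟩
        rw [h3]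
        exact h4
    simp only [this]
    rfl
  rw [h2]
  symm
  refine Finset.sum_bij' (i := fun k hk => (⟨k, (Finset.mem_filter.mp hk).2⟩ : X.Kb H g b))
    (j := fun k _ => k.1) ?_ ?_ ?_ ?_ ?_
  · intro k hk; exact Finset.mem_univ _
  · intro k _; exact Finset.mem_filter.mpr ⟨Finset.mem_univ _, k.2⟩
  · intro k hk; rfl
  · intro k hk; rfl
  · intro k hk; rfl

theorem lint_tilt (s : ℝ) {f : ℝ × ℝ → ℝ≥0∞} (hf : Measurable f) :
    ∫⁻ z : ℝ × ℝ, f (z.1, z.2 - s * z.1) = ∫⁻ z, f z := by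
  have h1 : Measurable fun z : ℝ × ℝ => f (z.1, z.2 - s * z.1) := hf.comp (by fun_prop)
  rw [Measure.volume_eq_prod, lintegral_prod _ h1.aemeasurable, lintegral_prod _ hf.aemeasurable]
  apply lintegral_congr
  intro x
  exact lintegral_sub_right_eq_self (fun y => f (x, y)) (s * x)

/-- the difference at one point -/
theorem diff_eq (X : Bxs ι κ) {H : ℝ} (hH : 0 < H) {g : ι → ℝ × ℝ → ℂ}
    (hg : ∀ i, Measurable (g i)) {C : ℝ} (hC : ∀ i z, ‖g i z‖ ≤ C) {b : ℤ} (hb : b ≠ 0)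
    (z : ℝ × ℝ) :
    Gb H b (fun z => ∑ i, g i (X.tilt i z)) z - (X.sys hH g hb).G Finset.univ z =
      ∑ i, Complex.exp (-(Complex.I * (eb H b * (X.s i * z.1) : ℝ))) *
        (Gb H b (g i) (X.tilt i z) - X.at' H g b i (X.tilt i z)) := by
  rw [Gb_sum hH b Finset.univ z]
  · rw [Sys.G, ff, ← Finset.sum_sub_distrib]
    apply Finset.sum_congr rfl
    intro i _
    rw [show (fun z => g i (X.tilt i z)) = fun z : ℝ × ℝ => g i (z.1, z.2 - X.s i * z.1) from rfl,
      Gb_tube, sys_a, mul_sub]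
    congr 1
    rw [mul_comm]
    congr 2
    simp only [sys]
    push_cast
    ring
  · intro i _
    have hm : Measurable fun t => g i (X.tilt i (z.1, t)) := by
      apply (hg i).comp
      unfold tilt
      fun_prop
    have : IsFiniteMeasure ((volume : Measure ℝ).restrict (Ioc z.2 (z.2 + H))) :=
      ⟨by rw [Measure.restrict_apply_univ, Real.volume_Ioc]; exact ENNReal.ofReal_lt_top⟩
    exact (MemLp.of_bound (p := 1) hm.aestronglyMeasurable C
      (Filter.Eventually.of_forall fun t => hC i _)).integrable le_rfl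

/-- Cauchy–Schwarz for few non zero terms -/
theorem sq_sum_le {ι : Type} [Fintype ι] (c : ι → ℂ) (K : ℕ) (S : Finset ι) (hS : S.card ≤ K)
    (h : ∀ i, i ∉ S → c i = 0) : ‖∑ i, c i‖ₑ ^ 2 ≤ K * ∑ i, ‖c i‖ₑ ^ 2 := by
  have h1 : ‖∑ i, c i‖ ^ 2 ≤ K * ∑ i, ‖c i‖ ^ 2 := by
    have e1 : ∑ i, c i = ∑ i ∈ S, c i := by
      symm
      apply Finset.sum_subset (Finset.subset_univ _)
      intro i _ hi
      exact h i hi
    rw [e1]
    calc ‖∑ i ∈ S, c i‖ ^ 2 ≤ (∑ i ∈ S, ‖c i‖) ^ 2 := by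
          gcongr
          exact norm_sum_le _ _
      _ ≤ S.card * ∑ i ∈ S, ‖c i‖ ^ 2 := sq_sum_le_card_mul_sum_sq
      _ ≤ K * ∑ i, ‖c i‖ ^ 2 := by
          have h2 : ∑ i ∈ S, ‖c i‖ ^ 2 ≤ ∑ i, ‖c i‖ ^ 2 :=
            Finset.sum_le_sum_of_subset_of_nonneg (Finset.subset_univ _) fun i _ _ => sq_nonneg _
          have h3 : (S.card : ℝ) ≤ K := by exact_mod_cast hS
          have h4 : 0 ≤ ∑ i ∈ S, ‖c i‖ ^ 2 := Finset.sum_nonneg fun i _ => sq_nonneg _
          exact mul_le_mul h3 h2 h4 (by positivity)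
  calc ‖∑ i, c i‖ₑ ^ 2 = ENNReal.ofReal (‖∑ i, c i‖ ^ 2) := by
        rw [ENNReal.ofReal_pow (norm_nonneg _), ofReal_norm]
    _ ≤ ENNReal.ofReal (K * ∑ i, ‖c i‖ ^ 2) := ENNReal.ofReal_le_ofReal h1
    _ = K * ∑ i, ‖c i‖ₑ ^ 2 := by
        rw [ENNReal.ofReal_mul (by positivity), ENNReal.ofReal_natCast,
          ENNReal.ofReal_sum_of_nonneg (fun i _ => sq_nonneg _)]
        congr 1
        apply Finset.sum_congr rfl
        intro i _
        rw [ENNReal.ofReal_pow (norm_nonneg _), ofReal_norm]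

/-- **(u1)** the total error of the step systems, all bands together. -/
theorem err_sys {X : Bxs ι κ} (hX : X.Disj) {H θ : ℝ} (hH : 0 < H)
    (hθ0 : 0 ≤ θ) (hθ : ∀ k, X.h k ≤ θ * H) (hθ1 : θ ≤ 1) {g : ι → ℝ × ℝ → ℂ}
    (hg : ∀ i, Measurable (g i)) {C : ℝ} (hC : ∀ i z, ‖g i z‖ ≤ C)
    {gs : ι → ℝ × ℝ → ℝ≥0∞} (hgs : ∀ i, Measurable (gs i))
    (hosc : ∀ k, ∀ x ∈ Ico (X.x0 k) (X.x0 k + X.lam k),
      ∀ x' ∈ Ico (X.x0 k) (X.x0 k + X.lam k), ∀ t ∈ Ioo (X.y0 k) (X.y0 k + X.h k + H),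
      ‖g (X.tb k) (x, t) - g (X.tb k) (x', t)‖ₑ ≤ gs (X.tb k) (x, t))
    (hout : ∀ i w, w ∉ X.reg i → ∀ t ∈ Ioc w.2 (w.2 + H), g i (w.1, t) = 0)
    {F : Set (ℝ × ℝ)} (K : ℕ)
    (hK : ∀ z ∈ F, ∀ S : Finset ι, (∀ i ∈ S, X.tilt i z ∈ X.reg i) → S.card ≤ K)
    (hF : MeasurableSet F) {B : Type} (φ : B → ℤ) (hφ : Function.Injective φ)
    (h0 : ∀ b, φ b ≠ 0) :
    ∫⁻ z in F, ∑' b : B, ‖Gb H (φ b) (fun z => ∑ i, g i (X.tilt i z)) z -
        (X.sys hH g (h0 b)).G Finset.univ z‖ₑ ^ 2 ≤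
      K * ∑ i, (ENNReal.ofReal (8 * θ) * (∫⁻ w, ‖g i w‖ₑ ^ 2) + 2 * ∫⁻ w, gs i w ^ 2) := by
  classical
  set e : ι → ℤ → ℝ × ℝ → ℂ := fun i b w => Gb H b (g i) w - X.at' H g b i w with he
  have hem : ∀ i b, Measurable (e i b) := fun i b =>
    (Gb_meas hH b (hg i)).sub (X.measurable_at' H g b i)
  have hE0 : ∀ i b w, w ∉ X.reg i → e i b w = 0 := by
    intro i b w hw
    have : Gb H b (g i) w = 0 := by
      rw [Gb_cf, cf_congr (g := fun _ => 0) hH b (fun t ht => hout i w hw t ht)]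
      simp [cf]
    rw [he]
    simp only
    rw [X.at'_zero H g b hw, this, sub_zero]
  have hphase : ∀ t : ℝ, ‖Complex.exp (-(Complex.I * (t : ℂ)))‖ₑ = 1 := by
    intro t
    rw [show -(Complex.I * (t : ℂ)) = ((-t : ℝ) : ℂ) * Complex.I by push_cast; ring]
    rw [← ofReal_norm, Complex.norm_exp_ofReal_mul_I]
    simp
  calc ∫⁻ z in F, ∑' b : B, ‖Gb H (φ b) (fun z => ∑ i, g i (X.tilt i z)) z -
        (X.sys hH g (h0 b)).G Finset.univ z‖ₑ ^ 2
      ≤ ∫⁻ z in F, ∑' b : B, (K * ∑ i, ‖e i (φ b) (X.tilt i z)‖ₑ ^ 2) := by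
        apply setLIntegral_mono' hF
        intro z hz
        apply ENNReal.tsum_le_tsum
        intro b
        rw [diff_eq X hH hg hC (h0 b) z]
        refine (sq_sum_le _ K (Finset.univ.filter fun i => X.tilt i z ∈ X.reg i)
          (hK z hz _ (fun i hi => (Finset.mem_filter.mp hi).2)) ?_).trans (le_of_eq ?_)
        · intro i hi
          have hi' : X.tilt i z ∉ X.reg i := fun hc =>
            hi (Finset.mem_filter.mpr ⟨Finset.mem_univ _, hc⟩)
          have := hE0 i (φ b) _ hi'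
          rw [he] at this
          simp only at this
          rw [this, mul_zero]
        · congr 1
          apply Finset.sum_congr rfl
          intro i _
          rw [enorm_mul, hphase, one_mul]
    _ ≤ ∫⁻ z, K * ∑ i, ∑' b : ℤ, ‖e i b (X.tilt i z)‖ₑ ^ 2 := by
        refine (setLIntegral_le_lintegral _ _).trans (lintegral_mono fun z => ?_)
        simp only
        rw [ENNReal.tsum_mul_left]
        gcongr
        rw [Summable.tsum_finsetSum (fun i _ => ENNReal.summable)]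
        apply Finset.sum_le_sum
        intro i _
        exact ENNReal.tsum_comp_le_tsum_of_injective hφ (fun b => ‖e i b (X.tilt i z)‖ₑ ^ 2)
    _ = K * ∑ i, ∫⁻ z, ∑' b : ℤ, ‖e i b (X.tilt i z)‖ₑ ^ 2 := by
        have hm : ∀ i, Measurable fun z => ∑' b : ℤ, ‖e i b (X.tilt i z)‖ₑ ^ 2 := by
          intro i
          apply Measurable.tsum
          intro b
          apply Measurable.pow_const
          apply Measurable.enorm
          apply (hem i b).comp
          unfold tilt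
          fun_prop
        rw [lintegral_const_mul _ (Finset.measurable_sum _ fun i _ => hm i),
          lintegral_finsetSum _ fun i _ => hm i]
    _ = K * ∑ i, ∫⁻ w, ∑' b : ℤ, ‖e i b w‖ₑ ^ 2 := by
        congr 1
        apply Finset.sum_congr rfl
        intro i _
        exact lint_tilt (X.s i) (f := fun w => ∑' b : ℤ, ‖e i b w‖ₑ ^ 2)
          (Measurable.tsum fun b => ((hem i b).enorm.pow_const 2))
    _ ≤ _ := by
        gcongr with i _
        apply err_one hX hH hθ0 hθ hθ1 (hg i) (hC i) (hgs i)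
        · intro k hk
          subst hk
          exact hosc k
        · exact hout i

omit [Fintype ι] [Fintype κ] in
/-- the energy of the values on one box -/
theorem tsum_val_le (X : Bxs ι κ) {H : ℝ} (hH : 0 < H) {g : ι → ℝ × ℝ → ℂ} (k : κ)
    (hg : Measurable (g (X.tb k))) {C : ℝ} (hC : ∀ z, ‖g (X.tb k) z‖ ≤ C) :
    ∑' b : ℤ, ‖X.val H g b k‖ₑ ^ 2 ≤ (volume (X.box k))⁻¹ *
      ∫⁻ w in X.box k, Wa H (fun w => ‖g (X.tb k) w‖ₑ ^ 2) w := by
  have hv : volume (X.box k) = ENNReal.ofReal (X.lam k) * ENNReal.ofReal (X.h k) := by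
    rw [box, Measure.volume_eq_prod, Measure.prod_prod, Real.volume_Ico, Real.volume_Ico]
    congr 2 <;> ring
  have hv0 : volume (X.box k) ≠ 0 := by
    rw [hv]
    exact mul_ne_zero (by simpa using X.lam_pos k) (by simpa using X.h_pos k)
  have hvt : volume (X.box k) ≠ ⊤ := by
    rw [hv]
    exact ENNReal.mul_ne_top ENNReal.ofReal_ne_top ENNReal.ofReal_ne_top
  have hvp : 0 < (volume (X.box k)).toReal := ENNReal.toReal_pos hv0 hvt
  have h1 : ∀ b : ℤ, ‖X.val H g b k‖ₑ ^ 2 ≤ (volume (X.box k))⁻¹ *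
      ∫⁻ w in X.box k, ‖Gb H b (g (X.tb k)) w‖ₑ ^ 2 := by
    intro b
    have hm : Measurable fun w => ‖Gb H b (g (X.tb k)) w‖ₑ := (Gb_meas hH b hg).enorm
    have hi : ‖((volume (X.box k)).toReal)⁻¹‖ₑ = (volume (X.box k))⁻¹ := by
      rw [Real.enorm_eq_ofReal (by positivity), ENNReal.ofReal_inv_of_pos hvp,
        ENNReal.ofReal_toReal hvt]
    rw [val, setAverage_eq, enorm_smul, mul_pow, measureReal_def, hi]
    calc (volume (X.box k))⁻¹ ^ 2 * ‖∫ w in X.box k, Gb H b (g (X.tb k)) w‖ₑ ^ 2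
        ≤ (volume (X.box k))⁻¹ ^ 2 * (∫⁻ w in X.box k, ‖Gb H b (g (X.tb k)) w‖ₑ) ^ 2 := by
          gcongr
          exact enorm_integral_le_lintegral_enorm _
      _ ≤ (volume (X.box k))⁻¹ ^ 2 * (volume (X.box k) *
            ∫⁻ w in X.box k, ‖Gb H b (g (X.tb k)) w‖ₑ ^ 2) := by
          gcongr
          have := lint_sq_le (volume.restrict (X.box k)) hm.aemeasurable
          rwa [Measure.restrict_apply_univ] at this
      _ = _ := by
          rw [sq, mul_assoc, ← mul_assoc _ (volume (X.box k)), ENNReal.inv_mul_cancel hv0 hvt,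
            one_mul]
  calc ∑' b : ℤ, ‖X.val H g b k‖ₑ ^ 2
      ≤ ∑' b : ℤ, (volume (X.box k))⁻¹ * ∫⁻ w in X.box k, ‖Gb H b (g (X.tb k)) w‖ₑ ^ 2 :=
        ENNReal.tsum_le_tsum h1
    _ = _ := by
        rw [ENNReal.tsum_mul_left, ← lintegral_tsum]
        · congr 1
          apply lintegral_congr
          intro w
          rw [tsum_Gb_bdd hH hg hC]
          rfl
        · intro b
          exact ((Gb_meas hH b hg).enorm.pow_const 2).aemeasurable

omit [Fintype ι] in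
/-- the energy of the step amplitudes at one point -/
theorem tsum_at'_le {X : Bxs ι κ} (hX : X.Disj) {H : ℝ} (hH : 0 < H) {g : ι → ℝ × ℝ → ℂ} {k : κ}
    (hg : Measurable (g (X.tb k))) {C : ℝ} (hC : ∀ z, ‖g (X.tb k) z‖ ≤ C) {w : ℝ × ℝ}
    (hw : w ∈ X.box k) :
    ∑' b : ℤ, ‖X.at' H g b (X.tb k) w‖ₑ ^ 2 ≤ (volume (X.box k))⁻¹ *
      ∫⁻ w in X.box k, Wa H (fun w => ‖g (X.tb k) w‖ₑ ^ 2) w := by
  have : ∀ b : ℤ, X.at' H g b (X.tb k) w = X.val H g b k := fun b => at'_eq hX H g b hw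
  simp_rw [this]
  exact X.tsum_val_le hH k hg hC

/-- the total energy of the step amplitudes of one tube -/
theorem lint_at'_le {X : Bxs ι κ} (hX : X.Disj) {H : ℝ} (hH : 0 < H) {g : ι → ℝ × ℝ → ℂ} {i : ι}
    (hg : Measurable (g i)) {C : ℝ} (hC : ∀ z, ‖g i z‖ ≤ C) :
    ∫⁻ w, ∑' b : ℤ, ‖X.at' H g b i w‖ₑ ^ 2 ≤ ∫⁻ w, ‖g i w‖ₑ ^ 2 := by
  classical
  set S := Finset.univ.filter (fun k => X.tb k = i) with hS
  have hreg : X.reg i = ⋃ k ∈ S, X.box k := by
    ext w
    simp [reg, hS]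
  have hregm : MeasurableSet (X.reg i) := by
    rw [hreg]
    exact S.measurableSet_biUnion fun k _ => X.measurableSet_box k
  calc ∫⁻ w, ∑' b : ℤ, ‖X.at' H g b i w‖ₑ ^ 2
      = ∫⁻ w in X.reg i, ∑' b : ℤ, ‖X.at' H g b i w‖ₑ ^ 2 := by
        rw [← lintegral_indicator hregm]
        apply lintegral_congr
        intro w
        by_cases hw : w ∈ X.reg i
        · rw [indicator_of_mem hw]
        · rw [indicator_of_notMem hw, ENNReal.tsum_eq_zero]
          intro b
          rw [X.at'_zero H g b hw]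
          simp
    _ = ∑ k ∈ S, ∫⁻ w in X.box k, ∑' b : ℤ, ‖X.at' H g b i w‖ₑ ^ 2 := by
        rw [hreg, lintegral_biUnion_finset]
        · intro k hk k' hk' hne
          simp only [hS, Finset.coe_filter, Finset.mem_univ, true_and, mem_ofPred_eq] at hk hk'
          exact hX k k' (hk.trans hk'.symm) hne
        · intro k _
          exact X.measurableSet_box k
    _ ≤ ∑ k ∈ S, ∫⁻ w in X.box k, Wa H (fun w => ‖g i w‖ₑ ^ 2) w := by
        apply Finset.sum_le_sum
        intro k hk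
        have hki : X.tb k = i := by simpa [hS] using hk
        subst hki
        calc ∫⁻ w in X.box k, ∑' b : ℤ, ‖X.at' H g b (X.tb k) w‖ₑ ^ 2
            ≤ ∫⁻ w in X.box k, (volume (X.box k))⁻¹ *
              ∫⁻ w in X.box k, Wa H (fun w => ‖g (X.tb k) w‖ₑ ^ 2) w := by
              apply setLIntegral_mono' (X.measurableSet_box k)
              intro w hw
              exact tsum_at'_le hX hH hg hC hw
          _ ≤ _ := by
              rw [setLIntegral_const]
              have hv : volume (X.box k) = ENNReal.ofReal (X.lam k) * ENNReal.ofReal (X.h k) := by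
                rw [box, Measure.volume_eq_prod, Measure.prod_prod, Real.volume_Ico,
                  Real.volume_Ico]
                congr 2 <;> ring
              have hv0 : volume (X.box k) ≠ 0 := by
                rw [hv]
                exact mul_ne_zero (by simpa using X.lam_pos k) (by simpa using X.h_pos k)
              have hvt : volume (X.box k) ≠ ⊤ := by
                rw [hv]
                exact ENNReal.mul_ne_top ENNReal.ofReal_ne_top ENNReal.ofReal_ne_top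
              rw [mul_right_comm, ENNReal.inv_mul_cancel hv0 hvt, one_mul]
    _ ≤ ∫⁻ w, Wa H (fun w => ‖g i w‖ₑ ^ 2) w := sum_box_le hX i _
    _ = _ := lint_Wa_all hH (hg.enorm.pow_const 2)

/-- the total square sum of the step systems -/
theorem sq_sys_le {X : Bxs ι κ} (hX : X.Disj) {H : ℝ} (hH : 0 < H) {g : ι → ℝ × ℝ → ℂ}
    (hg : ∀ i, Measurable (g i)) {C : ℝ} (hC : ∀ i z, ‖g i z‖ ≤ C) {B : Type} (φ : B → ℤ)
    (hφ : Function.Injective φ) (h0 : ∀ b, φ b ≠ 0) :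
    ∫⁻ z, ∑' b : B, (X.sys hH g (h0 b)).sq Finset.univ z ≤ ∑ i, ∫⁻ w, ‖g i w‖ₑ ^ 2 := by
  have hm : ∀ i, Measurable fun w => ∑' b : ℤ, ‖X.at' H g b i w‖ₑ ^ 2 := fun i =>
    Measurable.tsum fun b => (X.measurable_at' H g b i).enorm.pow_const 2
  calc ∫⁻ z, ∑' b : B, (X.sys hH g (h0 b)).sq Finset.univ z
      ≤ ∫⁻ z, ∑ i, ∑' b : ℤ, ‖X.at' H g b i (X.tilt i z)‖ₑ ^ 2 := by
        apply lintegral_mono
        intro z
        simp only
        have e1 : ∀ b : B, (X.sys hH g (h0 b)).sq Finset.univ z =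
            ∑ i, ‖X.at' H g (φ b) i (X.tilt i z)‖ₑ ^ 2 := by
          intro b
          rw [Sys.sq]
          apply Finset.sum_congr rfl
          intro i _
          rw [sys_a, ENNReal.ofReal_pow (norm_nonneg _), ofReal_norm]
        simp_rw [e1]
        rw [Summable.tsum_finsetSum (fun i _ => ENNReal.summable)]
        apply Finset.sum_le_sum
        intro i _
        exact ENNReal.tsum_comp_le_tsum_of_injective hφ
          (fun b => ‖X.at' H g b i (X.tilt i z)‖ₑ ^ 2)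
    _ = ∑ i, ∫⁻ z, ∑' b : ℤ, ‖X.at' H g b i (X.tilt i z)‖ₑ ^ 2 := by
        rw [lintegral_finsetSum]
        intro i _
        apply (hm i).comp
        unfold tilt
        fun_prop
    _ = ∑ i, ∫⁻ w, ∑' b : ℤ, ‖X.at' H g b i w‖ₑ ^ 2 := by
        apply Finset.sum_congr rfl
        intro i _
        exact lint_tilt (X.s i) (hm i)
    _ ≤ _ := by
        apply Finset.sum_le_sum
        intro i _
        exact lint_at'_le hX hH (hg i) (hC i)

end Bxs

end Vale.Agent.P112.H8
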