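import Vale.Agent.P112.H8.GridQ
import Vale.Agent.P112.T580.Amp
import Vale.Agent.P112.T.Basic

/-!
# [GAIN-BOX], one tree: the horizontal cells of the boxes

`Gd E n a τ m k`: no pair shorter than `2 ^ a` times the cell `(m, k)` has its kernel near it.
The cells of the boxes: maximal good cells which are reached by the tree.
-/

open MeasureTheory Set
open scoped ENNReal

namespace Vale.Agent.P112.H8

open Vale.Agent.P112.T Vale.Agent.P112.T580

/-- good cells -/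
def Gd (E : ℕ → Set (ℝ × ℝ)) (n a : ℕ) (τ : ℝ) (m : ℕ) (k : ℤ) : Prop :=
  ∀ j, m < j + a → j < n → ∀ z ∈ E j, ∀ x, q τ m x = k → 1 / (8 * 2 ^ j) + 2 / 2 ^ m < |z.1 - x|

/-- reached cells -/
def Reach (E : ℕ → Set (ℝ × ℝ)) (n : ℕ) (τ : ℝ) (m : ℕ) (k : ℤ) : Prop :=
  ∃ j < n, ∃ z ∈ E j, ∃ x, q τ m x = k ∧ |z.1 - x| ≤ 1 / (8 * 2 ^ j)

/-- the cells of the boxes -/
def Sel (E : ℕ → Set (ℝ × ℝ)) (n a : ℕ) (τ : ℝ) (m : ℕ) (k : ℤ) : Prop :=
  Reach E n τ m k ∧ Gd E n a τ m k ∧ 1 ≤ m ∧ ∀ x, q τ m x = k → ¬ Gd E n a τ (m - 1) (q τ (m - 1) x)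

variable {E : ℕ → Set (ℝ × ℝ)} {n a : ℕ} {τ : ℝ}

theorem Gd.succ {m : ℕ} {x : ℝ} (h : Gd E n a τ m (q τ m x)) : Gd E n a τ (m + 1) (q τ (m + 1) x) := by
  intro j hj hjn z hz x' hx'
  have h1 := h j (by omega) hjn z hz x' (q_nest τ m x' x hx')
  have h2 : (2:ℝ) / 2 ^ (m + 1) ≤ 2 / 2 ^ m := by
    apply div_le_div_of_nonneg_left (by norm_num) (by positivity)
    exact pow_le_pow_right₀ (by norm_num) (by omega)
  linarith

theorem Gd.le {m m' : ℕ} (hm : m ≤ m') {x : ℝ} (h : Gd E n a τ m (q τ m x)) :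
    Gd E n a τ m' (q τ m' x) := by
  induction m', hm using Nat.le_induction with
  | base => exact h
  | succ k _ ih => exact ih.succ

theorem Gd.top {m : ℕ} (hm : n + a ≤ m + 1) (k : ℤ) : Gd E n a τ m k := by
  intro j hj hjn
  omega

/-- a reaching pair of a good cell is long -/
theorem Gd.long {m : ℕ} {k : ℤ} (h : Gd E n a τ m k) {j : ℕ} (hj : j < n) {z : ℝ × ℝ} (hz : z ∈ E j)
    {x : ℝ} (hx : q τ m x = k) (hr : |z.1 - x| ≤ 1 / (8 * 2 ^ j)) : j + a ≤ m := by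
  by_contra hc
  have := h j (by omega) hj z hz x hx
  have h2 : (0:ℝ) < 2 / 2 ^ m := by positivity
  linarith

/-- every reached point lies in a selected cell -/
theorem exists_sel (ha : 1 ≤ a) {j : ℕ} (hj : j < n) {z : ℝ × ℝ} (hz : z ∈ E j) {x : ℝ}
    (hr : |z.1 - x| ≤ 1 / (8 * 2 ^ j)) : ∃ m, Sel E n a τ m (q τ m x) := by
  classical
  have hex : ∃ m, Gd E n a τ m (q τ m x) := ⟨n + a, Gd.top (by omega) _⟩
  set m := Nat.find hex with hm
  have h1 : Gd E n a τ m (q τ m x) := Nat.find_spec hex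
  have h2 := h1.long hj hz rfl hr
  refine ⟨m, ⟨j, hj, z, hz, x, rfl, hr⟩, h1, by omega, ?_⟩
  intro x' hx' hc
  have h3 : q τ (m - 1) x' = q τ (m - 1) x := by
    apply q_nest τ (m - 1) x' x
    have : m - 1 + 1 = m := by omega
    rw [this]; exact hx'
  rw [h3] at hc
  exact Nat.find_min hex (by omega : m - 1 < m) hc

/-- the selected cells are disjoint -/
theorem sel_unique {m m' : ℕ} {x : ℝ} (h : Sel E n a τ m (q τ m x)) (h' : Sel E n a τ m' (q τ m' x)) :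
    m = m' := by
  by_contra hne
  rcases lt_or_gt_of_ne hne with h1 | h1
  · exact h'.2.2.2 x rfl (h.2.1.le (by omega))
  · exact h.2.2.2 x rfl (h'.2.1.le (by omega))

theorem Sel.lt {m : ℕ} {k : ℤ} (h : Sel E n a τ m k) : m < n + a := by
  obtain ⟨⟨j, hj, z, hz, x, hx, hr⟩, h1, h2, h3⟩ := h
  by_contra hc
  exact h3 x hx (Gd.top (by omega) _)

/-- the single scale operators vanish away from the points -/
theorem S_zero {M : ℕ} (κ : Ker M) {u g : ℝ × ℝ → ℝ} {j : ℕ} {F : Set (ℝ × ℝ)} {ζ : ℝ × ℝ}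
    (h : ∀ z ∈ F, |z.1 - ζ.1| ≤ 1 / (8 * 2 ^ j) → |z.2 - ζ.2 - (z.1 - ζ.1) * u z| ≤ 1 → False) :
    κ.S u j (F.indicator g) ζ = 0 := by
  unfold Ker.S
  apply integral_eq_zero_of_ae
  refine Filter.Eventually.of_forall fun z => ?_
  simp only [Pi.zero_apply]
  by_cases hz : z ∈ F
  · by_cases hk : κ.k j (u z) z ζ = 0
    · rw [hk, zero_mul]
    · exact (h z hz (κ.k_supp hk).1 (κ.k_supp hk).2).elim
  · rw [indicator_of_notMem hz, mul_zero]

/-- a nonzero value of the tree function has a reaching pair -/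
theorem FS_ne {M : ℕ} (κ : Ker M) {u g : ℝ × ℝ → ℝ} {ζ : ℝ × ℝ} (h : κ.FS u g E n ζ ≠ 0) :
    ∃ j < n, ∃ z ∈ E j, |z.1 - ζ.1| ≤ 1 / (8 * 2 ^ j) ∧
      |z.2 - ζ.2 - (z.1 - ζ.1) * u z| ≤ 1 := by
  by_contra hc
  push Not at hc
  apply h
  unfold Ker.FS
  apply Finset.sum_eq_zero
  intro j hj
  unfold Ker.S
  apply integral_eq_zero_of_ae
  refine Filter.Eventually.of_forall fun z => ?_
  simp only [Pi.zero_apply]
  by_cases hz : z ∈ E j
  · by_cases hk : κ.k j (u z) z ζ = 0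
    · rw [hk, zero_mul]
    · have h1 := κ.k_supp hk
      exact absurd h1.2 (not_le.mpr (hc j (Finset.mem_range.mp hj) z hz h1.1))
  · rw [indicator_of_notMem hz, mul_zero]

/-- the pairs of scale `j + a ≤ m` -/
def cutE (E : ℕ → Set (ℝ × ℝ)) (a m : ℕ) (j : ℕ) : Set (ℝ × ℝ) := if j + a ≤ m then E j else ∅

theorem FS_cut {M : ℕ} (κ : Ker M) {u g : ℝ × ℝ → ℝ} {Er : ℕ → Set (ℝ × ℝ)} {m : ℕ} {k : ℤ}
    (h : Gd Er n a τ m k) {ζ : ℝ × ℝ} (hζ : q τ m ζ.1 = k)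
    (hEr : ∀ j < n, ∀ z ∈ E j, |z.1 - ζ.1| ≤ 1 / (8 * 2 ^ j) →
      |z.2 - ζ.2 - (z.1 - ζ.1) * u z| ≤ 1 → z ∈ Er j) :
    κ.FS u g E n ζ = κ.FS u g (cutE E a m) n ζ := by
  unfold Ker.FS
  apply Finset.sum_congr rfl
  intro j hj
  rw [Finset.mem_range] at hj
  unfold cutE
  split_ifs with hm
  · rfl
  · rw [S_zero κ, S_zero κ]
    · intro z hz; exact absurd hz (notMem_empty z)
    · intro z hz h3 h4
      have h1 := h j (by omega) hj z (hEr j hj z hz h3 h4) ζ.1 hζ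
      have h2 : (0:ℝ) < 2 / 2 ^ m := by positivity
      linarith

theorem q_dist' {i : ℕ} {x x' : ℝ} (h : q τ i x = q τ i x') : |x - x'| ≤ 1 / 2 ^ i := by
  have h2 : (0:ℝ) < 2 ^ i := by positivity
  obtain ⟨a1, a2⟩ := (q_eq_iff τ i x _).1 rfl
  obtain ⟨b1, b2⟩ := (q_eq_iff τ i x' _).1 h.symm
  have h3 : |(x - x') * 2 ^ i| ≤ 1 := by
    rw [abs_le]
    constructor <;> nlinarith
  rw [abs_mul, abs_of_pos h2] at h3
  rw [le_div_iff₀ h2]
  exact h3

/-- oscillation of the tree function on a good cell -/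
theorem osc {M : ℕ} {κ : Ker M} {C0 A : ℝ} (hκ : κ.Bd 1 C0) (hA : 0 ≤ A) {u : ℝ × ℝ → ℝ}
    (hu : Measurable u) {g : ℝ × ℝ → ℝ} (hg : Nice g) (hE : ∀ j, MeasurableSet (E j)) {s : ℝ}
    (hs : ∀ j < n, ∀ z ∈ E j, |u z - s| ≤ A * 2 ^ j) {m : ℕ} (ham : a ≤ m) {k : ℤ}
    {Er : ℕ → Set (ℝ × ℝ)} (h : Gd Er n a τ m k) {x x' t : ℝ} (hx : q τ m x = k)
    (hx' : q τ m x' = k)
    (hEr : ∀ j < n, ∀ z ∈ E j, |z.2 - s * z.1 - t| ≤ 1 + A / 8 → z ∈ Er j) :
    ‖κ.FS u g E n (x, t + s * x) - κ.FS u g E n (x', t + s * x')‖ₑ ≤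
      ENNReal.ofReal (64 * C0 ^ 2 * (1 + A) * (2 + A) ^ 2 / 2 ^ a) *
        GR s (Un E n) g (x, t + s * x) := by
  have near : ∀ x0, ∀ j < n, ∀ z ∈ E j, |z.1 - x0| ≤ 1 / (8 * 2 ^ j) →
      |z.2 - (t + s * x0) - (z.1 - x0) * u z| ≤ 1 → z ∈ Er j := by
    intro x0 j hj z hz h3 h4
    apply hEr j hj z hz
    have e1 : |(z.1 - x0) * (u z - s)| ≤ A / 8 := by
      rw [abs_mul]
      calc |z.1 - x0| * |u z - s| ≤ 1 / (8 * 2 ^ j) * (A * 2 ^ j) := by
            gcongr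
            exact hs j hj z hz
        _ = A / 8 := by field_simp
    have e2 : z.2 - s * z.1 - t = (z.2 - (t + s * x0) - (z.1 - x0) * u z) +
        (z.1 - x0) * (u z - s) := by ring
    rw [e2]
    exact (abs_add_le _ _).trans (by linarith)
  rw [FS_cut κ h (ζ := (x, t + s * x)) hx (near x), FS_cut κ h (ζ := (x', t + s * x')) hx' (near x')]
  have hd : |x' - x| ≤ 1 / 2 ^ m := q_dist' (hx'.trans hx.symm)
  have hE' : ∀ j, MeasurableSet (cutE E a m j) := by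
    intro j
    unfold cutE
    split_ifs
    · exact hE j
    · exact MeasurableSet.empty
  have h1 := amp_one (κ := κ) (g := g) (E := cutE E a m) (s := s) (n := n) (J := m - a) (x := x)
    (t := x' - x) (y := t + s * x) hκ hA hu hg hE'
    (by
      intro j hj z hz
      unfold cutE at hz
      split_ifs at hz
      · rw [div_one]; exact hs j hj z hz
      · exact absurd hz (notMem_empty z))
    (by
      refine hd.trans ?_
      apply one_div_le_one_div_of_le (by positivity)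
      exact pow_le_pow_right₀ (by norm_num) (by omega))
    (by
      intro i hi hin z hz
      unfold cutE at hz
      split_ifs at hz with hc
      · omega
      · exact absurd hz (notMem_empty z))
  have e1 : x + (x' - x) = x' := by ring
  have e2 : t + s * x + s * (x' - x) = t + s * x' := by ring
  rw [e1, e2] at h1
  rw [← enorm_neg, neg_sub]
  refine h1.trans (mul_le_mul' ?_ ?_)
  · apply ENNReal.ofReal_le_ofReal
    have hC0 : 0 ≤ 64 * C0 ^ 2 * (1 + A) * (2 + A) ^ 2 := by positivity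
    have h3 : |x' - x| * 2 ^ (m - a) ≤ 1 / 2 ^ a := by
      calc |x' - x| * 2 ^ (m - a) ≤ 1 / 2 ^ m * 2 ^ (m - a) := by gcongr
        _ = 1 / 2 ^ a := by
          have : (2:ℝ) ^ m = 2 ^ a * 2 ^ (m - a) := by
            rw [← pow_add]; congr 1; omega
          rw [this]
          field_simp
    calc 64 * C0 ^ 2 * (1 + A) * (2 + A) ^ 2 * |x' - x| * 2 ^ (m - a)
        = 64 * C0 ^ 2 * (1 + A) * (2 + A) ^ 2 * (|x' - x| * 2 ^ (m - a)) := by ring
      _ ≤ 64 * C0 ^ 2 * (1 + A) * (2 + A) ^ 2 * (1 / 2 ^ a) := by gcongr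
      _ = _ := by ring
  · unfold GR
    apply HL.MV_mono
    apply HL.MS_mono
    intro z
    apply indicator_le_indicator_of_subset _ (fun _ => zero_le)
    rintro z ⟨j, hj, hz⟩
    unfold cutE at hz
    split_ifs at hz
    · exact ⟨j, hj, hz⟩
    · exact absurd hz (notMem_empty z)

end Vale.Agent.P112.H8
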