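import Vale.Agent.P112.H8.BoxA
import Vale.Agent.P112.H8.StepD

/-!
# [GAIN-BOX]: the boxes of a family of trees
-/

open MeasureTheory Set
open scoped ENNReal

noncomputable section

namespace Vale.Agent.P112.H8

open Vale.Agent.P112.T Vale.Agent.P112.T580 Vale.Agent.P112.H371 Vale.Agent.P112.H646

/-- A family of trees which is separated pair against pair. `W` = half width,
`D` = tolerance of the difference of the offsets, `Q` = separation. -/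
structure TreesB {ι : Type} (u : ℝ × ℝ → ℝ) (A W D Q : ℝ) (n : ℕ) (s c : ι → ℝ)
    (E : ι → ℕ → Set (ℝ × ℝ)) : Prop where
  meas : ∀ i j, MeasurableSet (E i j)
  slope : ∀ i, ∀ j < n, ∀ z ∈ E i j, |u z - s i| ≤ A * 2 ^ j
  line : ∀ i, ∀ j < n, ∀ z ∈ E i j, |z.2 - c i - s i * z.1| ≤ W
  bdd : ∃ r : ℝ, ∀ i, ∀ j < n, ∀ z ∈ E i j, |z.1| ≤ r
  sep : ∀ i i', i ≠ i' → ∀ j j', j' ≤ j → j < n → ∀ z ∈ E i j, ∀ z' ∈ E i' j',
    |z.1 - z'.1| ≤ 1 / 2 ^ j' → |(z.2 - s i' * z.1) - (z'.2 - s i' * z'.1)| ≤ D →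
      Q * 2 ^ j ≤ |s i - s i'|

variable {ι : Type} {u : ℝ × ℝ → ℝ} {τ A W D Q : ℝ} {n : ℕ} {s c : ι → ℝ}
  {E : ι → ℕ → Set (ℝ × ℝ)}

/-- selected cells have level at least `a` -/
theorem Sel.le_level {E : ℕ → Set (ℝ × ℝ)} {n a : ℕ} {τ : ℝ} {m : ℕ} {k : ℤ}
    (hs : Sel E n a τ m k) : ∃ j < n, j + a ≤ m ∧ ∃ z ∈ E j, ∃ x, q τ m x = k ∧
      |z.1 - x| ≤ 1 / (8 * 2 ^ j) := by
  obtain ⟨⟨j, hj, z, hz, x', hx', hr⟩, h1, _⟩ := hs
  exact ⟨j, hj, h1.long hj hz hx' hr, z, hz, x', hx', hr⟩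

/-- the pairs which are seen from the windows of the row `l` (`hb` = height of the rows, `H` =
height of the windows, `R` = reach) -/
def Erow (s c hb H R : ℝ) (E : ℕ → Set (ℝ × ℝ)) (l : ℤ) (j : ℕ) : Set (ℝ × ℝ) :=
  {z | z ∈ E j ∧ c + l * hb - R ≤ z.2 - s * z.1 ∧ z.2 - s * z.1 ≤ c + (l + 1) * hb + H + R}

/-- the box indices -/
def BSet (s c : ι → ℝ) (hb H R : ℝ) (E : ι → ℕ → Set (ℝ × ℝ)) (n a : ℕ) (τ : ℝ) (K : ℕ) :
    Set (ι × ℕ × ℤ × ℤ) :=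
  {p | Sel (Erow (s p.1) (c p.1) hb H R (E p.1) p.2.2.2) n a τ p.2.1 p.2.2.1 ∧
    -(K : ℤ) ≤ p.2.2.2 ∧ p.2.2.2 < K}

theorem TreesB.fin [Fintype ι] (h : TreesB u A W D Q n s c E) (hb H R τ : ℝ) (a : ℕ)
    (K : ℕ) : (BSet s c hb H R E n a τ K).Finite := by
  classical
  obtain ⟨r, hr⟩ := h.bdd
  obtain ⟨N, hN⟩ := exists_nat_ge (2 ^ (n + a) * (|r| + |τ| + 1) + 1)
  refine ((Finset.univ ×ˢ Finset.range (n + a) ×ˢ Finset.Icc (-(N:ℤ)) N ×ˢ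
    Finset.Icc (-(K:ℤ)) K : Finset (ι × ℕ × ℤ × ℤ)).finite_toSet).subset ?_
  rintro ⟨i, m, k, l⟩ ⟨h1, h2, h3⟩
  simp only at h1 h2 h3
  simp only [Finset.coe_product, mem_prod, Finset.mem_coe, Finset.mem_univ, Finset.mem_range,
    Finset.mem_Icc, true_and]
  refine ⟨h1.lt, ?_, h2, h3.le⟩
  obtain ⟨j, hj, z, hz, x, hx, hrr⟩ := h1.1
  have hm := h1.lt
  obtain ⟨d1, d2⟩ := (q_eq_iff τ m x _).1 hx
  have hm1 : (1:ℝ) ≤ 2 ^ m := one_le_pow₀ (by norm_num)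
  have hm2 : (2:ℝ) ^ m ≤ 2 ^ (n + a) := pow_le_pow_right₀ (by norm_num) (by omega)
  have hj1 : (1:ℝ) / (8 * 2 ^ j) ≤ 1 := by
    rw [div_le_one (by positivity)]
    have : (1:ℝ) ≤ 2 ^ j := one_le_pow₀ (by norm_num)
    linarith
  have h6 : |x - τ| ≤ |r| + |τ| + 1 := by
    have e1 := hr i j hj z hz.1
    have e2 := le_abs_self r
    have e3 : |x - τ| ≤ |x| + |τ| := abs_sub _ _
    have e4 : |x| ≤ |x - z.1| + |z.1| := by
      have := abs_add_le (x - z.1) z.1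
      rwa [sub_add_cancel] at this
    rw [abs_sub_comm] at hrr
    linarith
  have h7 : |2 ^ m * (x - τ)| ≤ 2 ^ (n + a) * (|r| + |τ| + 1) := by
    rw [abs_mul, abs_of_pos (by positivity)]
    exact mul_le_mul hm2 h6 (abs_nonneg _) (by positivity)
  have h8 : |(k : ℝ)| ≤ N := by
    rw [abs_le] at h7 ⊢
    constructor <;> linarith
  have h9 : |k| ≤ (N : ℤ) := by exact_mod_cast h8
  exact abs_le.mp h9

/-- the finite set of box indices -/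
def TreesB.ix [Fintype ι] (h : TreesB u A W D Q n s c E) (hb H R τ : ℝ) (a : ℕ)
    (K : ℕ) : Finset (ι × ℕ × ℤ × ℤ) := (h.fin hb H R τ a K).toFinset

theorem TreesB.mem_ix [Fintype ι] (h : TreesB u A W D Q n s c E) (hb H R τ : ℝ) (a : ℕ)
    (K : ℕ) (p : ι × ℕ × ℤ × ℤ) : p ∈ h.ix hb H R τ a K ↔
      Sel (Erow (s p.1) (c p.1) hb H R (E p.1) p.2.2.2) n a τ p.2.1 p.2.2.1 ∧
        -(K : ℤ) ≤ p.2.2.2 ∧ p.2.2.2 < K := by
  rw [TreesB.ix, Set.Finite.mem_toFinset]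
  rfl

/-- the boxes -/
def TreesB.bxs [Fintype ι] (h : TreesB u A W D Q n s c E) {hb : ℝ} (hhb : 0 < hb) (H R τ : ℝ)
    (a : ℕ) (K : ℕ) : Bxs ι {p // p ∈ h.ix hb H R τ a K} where
  s := s
  tb := fun p => p.1.1
  x0 := fun p => τ + p.1.2.2.1 / 2 ^ p.1.2.1
  lam := fun p => 1 / 2 ^ p.1.2.1
  y0 := fun p => c p.1.1 + p.1.2.2.2 * hb
  h := fun _ => hb
  lam_pos := fun _ => by positivity
  h_pos := fun _ => hhb

section

variable [Fintype ι] (h : TreesB u A W D Q n s c E) {hb : ℝ} (hhb : 0 < hb) (H R τ : ℝ)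
  (a : ℕ) (K : ℕ)

theorem TreesB.mem_cell (p : {p // p ∈ h.ix hb H R τ a K}) (x : ℝ) :
    x ∈ Ico ((h.bxs hhb H R τ a K).x0 p) ((h.bxs hhb H R τ a K).x0 p + (h.bxs hhb H R τ a K).lam p) ↔
      q τ p.1.2.1 x = p.1.2.2.1 := by
  have h1 := q_cell τ p.1.2.1 p.1.2.2.1
  have h2 : (h.bxs hhb H R τ a K).x0 p + (h.bxs hhb H R τ a K).lam p =
      τ + ((p.1.2.2.1 : ℝ) + 1) / 2 ^ p.1.2.1 := by
    simp only [TreesB.bxs]
    ring
  rw [h2]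
  simp only [TreesB.bxs]
  rw [← h1]
  rfl

theorem TreesB.mem_row (p : {p // p ∈ h.ix hb H R τ a K}) (v : ℝ) :
    v ∈ Ico ((h.bxs hhb H R τ a K).y0 p) ((h.bxs hhb H R τ a K).y0 p + (h.bxs hhb H R τ a K).h p) ↔
      ⌊(v - c p.1.1) / hb⌋ = p.1.2.2.2 := by
  rw [Int.floor_eq_iff, mem_Ico, le_div_iff₀ hhb, div_lt_iff₀ hhb]
  simp only [TreesB.bxs]
  constructor
  · rintro ⟨h1, h2⟩; constructor <;> linarith
  · rintro ⟨h1, h2⟩; constructor <;> linarith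

theorem TreesB.mem_box (p : {p // p ∈ h.ix hb H R τ a K}) (w : ℝ × ℝ) :
    w ∈ (h.bxs hhb H R τ a K).box p ↔ q τ p.1.2.1 w.1 = p.1.2.2.1 ∧ ⌊(w.2 - c p.1.1) / hb⌋ = p.1.2.2.2 := by
  rw [Bxs.box, mem_prod, h.mem_cell hhb H R τ a K, h.mem_row hhb H R τ a K]

theorem TreesB.disj : (h.bxs hhb H R τ a K).Disj := by
  rintro p p' hpp hne
  have hpp' : p.1.1 = p'.1.1 := hpp
  rw [Set.disjoint_left]
  intro w hw hw'
  rw [h.mem_box hhb H R τ a K] at hw hw'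
  apply hne
  obtain ⟨⟨i, m, k, l⟩, hp⟩ := p
  obtain ⟨⟨i', m', k', l'⟩, hp'⟩ := p'
  simp only at hpp' hw hw'
  subst hpp'
  rw [h.mem_ix hb H R τ a K] at hp hp'
  simp only at hp hp'
  obtain ⟨h1, h2⟩ := hw
  obtain ⟨h1', h2'⟩ := hw'
  have hs := hp.1
  have hs' := hp'.1
  have hl : l = l' := h2.symm.trans h2'
  subst hl
  rw [← h1] at hs
  rw [← h1'] at hs'
  have hm := sel_unique hs hs'
  subst hm
  have hk : k = k' := h1.symm.trans h1'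
  subst hk
  rfl

/-- the tree functions in their own coordinates -/
def gfun {M : ℕ} (κ : Ker M) (u g : ℝ × ℝ → ℝ) (n : ℕ) (s : ι → ℝ) (E : ι → ℕ → Set (ℝ × ℝ))
    (i : ι) (w : ℝ × ℝ) : ℂ := ((κ.FS u g (E i) n (w.1, w.2 + s i * w.1) : ℝ) : ℂ)

/-- the majorant of the oscillation -/
def gsf (C0 A : ℝ) (a : ℕ) (g : ℝ × ℝ → ℝ) (n : ℕ) (s : ι → ℝ) (E : ι → ℕ → Set (ℝ × ℝ)) (i : ι)
    (w : ℝ × ℝ) : ℝ≥0∞ := ENNReal.ofReal (64 * C0 ^ 2 * (1 + A) * (2 + A) ^ 2 / 2 ^ a) *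
      GR (s i) (Un (E i) n) g (w.1, w.2 + s i * w.1)

theorem TreesB.osc {M : ℕ} {κ : Ker M} {C0 : ℝ} (hκ : κ.Bd 1 C0) (hA : 0 ≤ A)
    (hu : Measurable u) {g : ℝ × ℝ → ℝ} (hg : Nice g) (p : {p // p ∈ h.ix hb H R τ a K}) (x : ℝ)
    (hx : x ∈ Ico ((h.bxs hhb H R τ a K).x0 p) ((h.bxs hhb H R τ a K).x0 p + (h.bxs hhb H R τ a K).lam p)) (x' : ℝ)
    (hx' : x' ∈ Ico ((h.bxs hhb H R τ a K).x0 p) ((h.bxs hhb H R τ a K).x0 p + (h.bxs hhb H R τ a K).lam p))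
    (hR : 1 + A / 8 ≤ R) (t : ℝ) (ht : t ∈ Ioo ((h.bxs hhb H R τ a K).y0 p)
      ((h.bxs hhb H R τ a K).y0 p + (h.bxs hhb H R τ a K).h p + H)) :
    ‖gfun κ u g n s E p.1.1 (x, t) - gfun κ u g n s E p.1.1 (x', t)‖ₑ ≤
      gsf C0 A a g n s E p.1.1 (x, t) := by
  rw [h.mem_cell hhb H R τ a K] at hx hx'
  have hp := (h.mem_ix hb H R τ a K p.1).1 p.2
  have ham : a ≤ p.1.2.1 := by
    obtain ⟨j, _, hj, _⟩ := hp.1.le_level
    omega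
  have h1 := Vale.Agent.P112.H8.osc hκ hA hu hg (h.meas p.1.1) (h.slope p.1.1) ham hp.1.2.1
    (t := t) hx hx' (by
      intro j hj z hz hzt
      simp only [TreesB.bxs, mem_Ioo] at ht
      rw [abs_le] at hzt
      exact ⟨hz, by linarith [hzt.1, ht.1], by linarith [hzt.2, ht.2]⟩)
  unfold gfun gsf
  simp only
  rw [← Complex.ofReal_sub]
  refine le_trans (le_of_eq ?_) h1
  rw [← ofReal_norm, ← ofReal_norm, Complex.norm_real]

theorem TreesB.out {M : ℕ} {κ : Ker M} {g : ℝ × ℝ → ℝ} (ha : 1 ≤ a) (hH : 0 < H)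
    (hK : W + A / 8 + 1 + H ≤ K * hb) (hR : 1 + A / 8 ≤ R) (i : ι) (w : ℝ × ℝ)
    (hw : w ∉ (h.bxs hhb H R τ a K).reg i)
    (t : ℝ) (ht : t ∈ Ioc w.2 (w.2 + H)) : gfun κ u g n s E i (w.1, t) = 0 := by
  by_contra hne
  apply hw
  unfold gfun at hne
  simp only [Complex.ofReal_eq_zero] at hne
  obtain ⟨j, hj, z, hz, h1, h2⟩ := FS_ne κ hne
  simp only at h1 h2
  obtain ⟨ht1, ht2⟩ := ht
  have h0 : |z.2 - s i * z.1 - t| ≤ 1 + A / 8 := by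
    have e2 := h.slope i j hj z hz
    have e3 : |(z.1 - w.1) * (u z - s i)| ≤ A / 8 := by
      rw [abs_mul]
      calc |z.1 - w.1| * |u z - s i| ≤ 1 / (8 * 2 ^ j) * (A * 2 ^ j) := by gcongr
        _ = A / 8 := by field_simp
    have e4 : z.2 - s i * z.1 - t = (z.2 - (t + s i * w.1) - (z.1 - w.1) * u z) +
        (z.1 - w.1) * (u z - s i) := by ring
    rw [e4]
    exact (abs_add_le _ _).trans (by linarith)
  have h3 : |t - c i| ≤ W + A / 8 + 1 := by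
    have e1 := h.line i j hj z hz
    have e4 : t - c i = (z.2 - c i - s i * z.1) - (z.2 - s i * z.1 - t) := by ring
    rw [e4]
    exact (abs_sub _ _).trans (by linarith)
  rw [abs_le] at h3 h0
  set l := ⌊(w.2 - c i) / hb⌋ with hl
  have hl1 : (l:ℝ) * hb ≤ w.2 - c i := by
    have := Int.floor_le ((w.2 - c i) / hb)
    rwa [← hl, le_div_iff₀ hhb] at this
  have hl2 : w.2 - c i < (l + 1) * hb := by
    have := Int.lt_floor_add_one ((w.2 - c i) / hb)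
    rwa [← hl, div_lt_iff₀ hhb] at this
  have hz' : z ∈ Erow (s i) (c i) hb H R (E i) l j := ⟨hz, by linarith, by linarith⟩
  obtain ⟨m, hm⟩ := exists_sel (τ := τ) (a := a) (E := Erow (s i) (c i) hb H R (E i) l) ha hj hz' h1
  have hp : (i, m, q τ m w.1, l) ∈ h.ix hb H R τ a K := by
    rw [h.mem_ix hb H R τ a K]
    refine ⟨hm, ?_, ?_⟩
    · rw [hl, Int.le_floor, le_div_iff₀ hhb]
      push_cast
      linarith
    · rw [hl, Int.floor_lt, div_lt_iff₀ hhb]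
      push_cast
      linarith
  refine ⟨⟨_, hp⟩, rfl, ?_⟩
  rw [h.mem_box hhb H R τ a K]
  exact ⟨rfl, rfl⟩

end

end Vale.Agent.P112.H8
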