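import Vale.Agent.P112.H8.BoxB

/-!
# [GAIN-BOX]: separation of the boxes, levels (subfamilies of boxes), area
-/

open MeasureTheory Set
open scoped ENNReal

noncomputable section

namespace Vale.Agent.P112.H8

open Vale.Agent.P112.T Vale.Agent.P112.T580 Vale.Agent.P112.H371 Vale.Agent.P112.H646

namespace Bxs

variable {ι κ : Type}

/-- triple boxes -/
def box3 (X : Bxs ι κ) (k : κ) : Set (ℝ × ℝ) :=
  {z | X.x0 k - X.lam k ≤ z.1 ∧ z.1 < X.x0 k + 2 * X.lam k ∧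
    X.y0 k - X.h k ≤ z.2 - X.s (X.tb k) * z.1 ∧ z.2 - X.s (X.tb k) * z.1 < X.y0 k + 2 * X.h k}

/-- separation of the boxes -/
def Sp (X : Bxs ι κ) (q : ℝ) : Prop := ∀ k k', X.tb k ≠ X.tb k' →
  (X.box3 k ∩ X.box3 k').Nonempty → q ≤ |X.s (X.tb k) - X.s (X.tb k')| * min (X.lam k) (X.lam k')

/-- a subfamily of the boxes -/
def res (X : Bxs ι κ) (P : κ → Prop) : Bxs ι {k // P k} where
  s := X.s
  tb := fun k => X.tb k.1
  x0 := fun k => X.x0 k.1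
  lam := fun k => X.lam k.1
  y0 := fun k => X.y0 k.1
  h := fun k => X.h k.1
  lam_pos := fun k => X.lam_pos k.1
  h_pos := fun k => X.h_pos k.1

theorem res_disj {X : Bxs ι κ} (hX : X.Disj) (P : κ → Prop) : (X.res P).Disj :=
  fun k k' h hne => hX k.1 k'.1 h fun hc => hne (Subtype.ext hc)

theorem res_sp {X : Bxs ι κ} {q : ℝ} (hX : X.Sp q) (P : κ → Prop) : (X.res P).Sp q :=
  fun k k' hne h => hX k.1 k'.1 hne h

theorem sys_sep [Fintype ι] [Fintype κ] {X : Bxs ι κ} {q : ℝ} (hX : X.Sp q) {H : ℝ} (hH : 0 < H)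
    (g : ι → ℝ × ℝ → ℂ) {b : ℤ} (hb : b ≠ 0) : (X.sys hH g hb).Sep (|eb H b| * q) := by
  rintro k k' hne ⟨z, hz, hz'⟩
  have h1 := hX k.1 k'.1 hne ⟨z, ?_, ?_⟩
  · have e1 : |(X.sys hH g hb).η| = |eb H b| := by
      simp only [sys, abs_neg]
    rw [e1, mul_assoc]
    exact mul_le_mul_of_nonneg_left h1 (abs_nonneg _)
  · simp only [Sys.bx, sys, mem_ofPred_eq, one_mul] at hz
    simp only [box3, mem_ofPred_eq]
    refine ⟨hz.1, by linarith [hz.2.1], hz.2.2.1, by linarith [hz.2.2.2]⟩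
  · simp only [Sys.bx, sys, mem_ofPred_eq, one_mul] at hz'
    simp only [box3, mem_ofPred_eq]
    refine ⟨hz'.1, by linarith [hz'.2.1], hz'.2.2.1, by linarith [hz'.2.2.2]⟩

end Bxs

/-! ### the separation of the boxes -/

theorem tri_dist {τ : ℝ} {m : ℕ} {k : ℤ} {x ζ : ℝ} (hx : q τ m x = k)
    (h1 : τ + k / 2 ^ m - 1 / 2 ^ m ≤ ζ) (h2 : ζ < τ + k / 2 ^ m + 2 * (1 / 2 ^ m)) :
    |ζ - x| ≤ 2 / 2 ^ m := by
  have e2m : (0:ℝ) < 2 ^ m := by positivity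
  have h3 := q_cell τ m k
  have h4 : x ∈ {x | q τ m x = k} := hx
  rw [h3, mem_Ico, add_div] at h4
  have e : (2:ℝ) / 2 ^ m = 2 * (1 / 2 ^ m) := by ring
  rw [e, abs_le]
  constructor <;> linarith [h4.1, h4.2]

theorem par_dist {τ : ℝ} {m : ℕ} (hm : 1 ≤ m) {k : ℤ} {x2 x' ζ : ℝ} (hx2 : q τ m x2 = k)
    (hch : q τ (m - 1) x' = q τ (m - 1) x2)
    (h1 : τ + k / 2 ^ m - 1 / 2 ^ m ≤ ζ) (h2 : ζ < τ + k / 2 ^ m + 2 * (1 / 2 ^ m)) :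
    |ζ - x'| ≤ 3 / 2 ^ m := by
  have h3 := q_cell τ (m - 1) (q τ (m - 1) x2)
  have h4 : x' ∈ {x | q τ (m - 1) x = q τ (m - 1) x2} := hch
  rw [h3, mem_Ico] at h4
  obtain ⟨m0, rfl⟩ : ∃ m0, m = m0 + 1 := ⟨m - 1, by omega⟩
  simp only [Nat.add_sub_cancel] at h4 hch h3
  have h5 : k = 2 * q τ m0 x2 ∨ k = 2 * q τ m0 x2 + 1 := by
    obtain ⟨c1, c2⟩ := (q_eq_iff τ m0 x2 _).1 rfl
    obtain ⟨a1, a2⟩ := (q_eq_iff τ (m0+1) x2 _).1 hx2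
    rw [pow_succ] at a1 a2
    have e1 : (k:ℝ) < 2 * q τ m0 x2 + 2 := by linarith
    have e2 : (2:ℝ) * q τ m0 x2 < k + 1 := by linarith
    have f1 : k < 2 * q τ m0 x2 + 2 := by exact_mod_cast e1
    have f2 : 2 * q τ m0 x2 < k + 1 := by exact_mod_cast e2
    omega
  set P := q τ m0 x2 with hP
  have e2 : (0:ℝ) < 2 ^ m0 := by positivity
  have e3 : (1:ℝ) / 2 ^ (m0 + 1) = 1 / 2 * (1 / 2 ^ m0) := by rw [pow_succ]; field_simp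
  have e4 : (3:ℝ) / 2 ^ (m0 + 1) = 3 / 2 * (1 / 2 ^ m0) := by rw [pow_succ]; field_simp
  have e5 : (k:ℝ) / 2 ^ (m0 + 1) = k / 2 * (1 / 2 ^ m0) := by rw [pow_succ]; field_simp
  have e6 : (P:ℝ) / 2 ^ m0 = P * (1 / 2 ^ m0) := by ring
  have e7 : ((P:ℝ) + 1) / 2 ^ m0 = P * (1 / 2 ^ m0) + 1 / 2 ^ m0 := by ring
  rw [e3, e5] at h1 h2
  rw [e6, e7] at h4
  rw [e4]
  have e8 : (0:ℝ) < 1 / 2 ^ m0 := by positivity
  obtain ⟨h4a, h4b⟩ := h4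
  set t : ℝ := 1 / 2 ^ m0 with ht
  rcases h5 with h5 | h5
  · have : (k:ℝ) = 2 * P := by rw [h5]; push_cast; ring
    rw [this] at h1 h2
    rw [abs_le]
    constructor <;> linarith
  · have : (k:ℝ) = 2 * P + 1 := by rw [h5]; push_cast; ring
    rw [this] at h1 h2
    rw [abs_le]
    constructor <;> linarith

/-- the horizontal position of the pairs of two meeting boxes; `m ≤ m'`. -/
theorem pos_aux {E E' : ℕ → Set (ℝ × ℝ)} {n a : ℕ} {τ : ℝ} (ha : 4 ≤ a) {m m' : ℕ} {k k' : ℤ}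
    (hp : Sel E n a τ m k) (hp' : Sel E' n a τ m' k') (hm : m ≤ m') {ζ : ℝ}
    (h1 : τ + k / 2 ^ m - 1 / 2 ^ m ≤ ζ) (h2 : ζ < τ + k / 2 ^ m + 2 * (1 / 2 ^ m))
    (h1' : τ + k' / 2 ^ m' - 1 / 2 ^ m' ≤ ζ) (h2' : ζ < τ + k' / 2 ^ m' + 2 * (1 / 2 ^ m')) :
    ∃ j j' : ℕ, j ≤ j' ∧ m' ≤ j' + a ∧ j' < n ∧ ∃ z ∈ E j, ∃ z' ∈ E' j',
      |z'.1 - z.1| ≤ 1 / 2 ^ j ∧ |z'.1 - ζ| ≤ 5 / 8 * (2 ^ a * (1 / 2 ^ m')) := by
  have e2m : (0:ℝ) < 2 ^ m := by positivity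
  have e2m' : (0:ℝ) < 2 ^ m' := by positivity
  have e2a : (0:ℝ) < 2 ^ a := by positivity
  have ea16 : (16:ℝ) ≤ 2 ^ a := by
    calc (16:ℝ) = 2 ^ 4 := by norm_num
      _ ≤ 2 ^ a := pow_le_pow_right₀ (by norm_num) ha
  have elam : (1:ℝ) / 2 ^ m' ≤ 1 / 2 ^ m := by
    apply one_div_le_one_div_of_le e2m
    exact pow_le_pow_right₀ (by norm_num) hm
  obtain ⟨j, hj, hja, z, hz, x, hx, hr⟩ := hp.le_level
  obtain ⟨⟨j2, hj2, w2, hw2, x2, hx2, hr2⟩, hg2, hm1, hng⟩ := hp'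
  have hbad := hng x2 hx2
  unfold Gd at hbad
  push Not at hbad
  obtain ⟨j', hj'a, hj'n, z', hz', x', hx', hr'⟩ := hbad
  have hpar : (2:ℝ) / 2 ^ (m' - 1) = 4 * (1 / 2 ^ m') := by
    have : (2:ℝ) ^ m' = 2 ^ (m' - 1) * 2 := by
      rw [← pow_succ]; congr 1; omega
    rw [this]
    field_simp
    norm_num
  rw [hpar] at hr'
  have hdx := par_dist hm1 hx2 hx' h1' h2'
  have hζx := tri_dist hx h1 h2
  have hj' : m' ≤ j' + a := by omega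
  have hjj' : j ≤ j' := by omega
  have s1 : (1:ℝ) / (8 * 2 ^ j') = 1 / 8 * (1 / 2 ^ j') := by field_simp
  have s2 : (1:ℝ) / (8 * 2 ^ j) = 1 / 8 * (1 / 2 ^ j) := by field_simp
  have s3 : (3:ℝ) / 2 ^ m' = 3 * (1 / 2 ^ m') := by ring
  have s4 : (2:ℝ) / 2 ^ m = 2 * (1 / 2 ^ m) := by ring
  have hlen : (1:ℝ) / 2 ^ j' ≤ 2 ^ a * (1 / 2 ^ m') := by
    rw [mul_one_div, div_le_div_iff₀ (by positivity) e2m', one_mul, ← pow_add]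
    exact pow_le_pow_right₀ (by norm_num) (by omega)
  have hlm : (2:ℝ) ^ a * (1 / 2 ^ m) ≤ 1 / 2 ^ j := by
    rw [mul_one_div, div_le_div_iff₀ e2m (by positivity), one_mul, ← pow_add]
    exact pow_le_pow_right₀ (by norm_num) (by omega)
  have h16 : 16 * (1 / 2 ^ m) ≤ (2:ℝ) ^ a * (1 / 2 ^ m) := by gcongr
  have h16' : 16 * (1 / 2 ^ m') ≤ (2:ℝ) ^ a * (1 / 2 ^ m') := by gcongr
  have hlm' : (2:ℝ) ^ a * (1 / 2 ^ m') ≤ 2 ^ a * (1 / 2 ^ m) := by gcongr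
  rw [s1] at hr'
  rw [s2] at hr
  rw [s3] at hdx
  rw [s4] at hζx
  have hz'ζ : |z'.1 - ζ| ≤ 1 / 8 * (1 / 2 ^ j') + 7 * (1 / 2 ^ m') := by
    have t1 : |z'.1 - ζ| ≤ |z'.1 - x'| + |x' - ζ| := abs_sub_le _ _ _
    rw [abs_sub_comm x' ζ] at t1
    linarith
  have p1 : (0:ℝ) < 1 / 2 ^ m := by positivity
  have p2 : (0:ℝ) < 1 / 2 ^ m' := by positivity
  have p3 : (0:ℝ) < 1 / 2 ^ j := by positivity
  refine ⟨j, j', hjj', hj', hj'n, z, hz, z', hz', ?_, ?_⟩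
  · have t1 : |z'.1 - z.1| ≤ |z'.1 - ζ| + |ζ - z.1| := abs_sub_le _ _ _
    have t2 : |ζ - z.1| ≤ |ζ - x| + |x - z.1| := abs_sub_le _ _ _
    rw [abs_sub_comm x z.1] at t2
    linarith
  · linarith

variable {ι : Type} {u : ℝ × ℝ → ℝ} {A W D Q : ℝ} {n : ℕ} {s c : ι → ℝ}
  {E : ι → ℕ → Set (ℝ × ℝ)}

/-- the offset of the pair of the shorter box relative to the longer tree; `V` = vertical
distance of the pairs and the common point, in the coordinates of their own trees. -/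
theorem off_aux (h : TreesB u A W D Q n s c E) {i i' : ι} (hne : i ≠ i') {a : ℕ} {m' : ℕ}
    {V : ℝ} (hQ : 0 ≤ Q) (hD : 2 * V + 5 / 8 * Q ≤ D) {ζ : ℝ × ℝ} {j j' : ℕ}
    (hjj' : j ≤ j') (hj'a : m' ≤ j' + a) (hj'n : j' < n) {z z' : ℝ × ℝ} (hz : z ∈ E i j)
    (hz' : z' ∈ E i' j') (o1 : |(z.2 - s i * z.1) - (ζ.2 - s i * ζ.1)| ≤ V)
    (o2 : |(z'.2 - s i' * z'.1) - (ζ.2 - s i' * ζ.1)| ≤ V)
    (hzz : |z'.1 - z.1| ≤ 1 / 2 ^ j)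
    (v1 : |z'.1 - ζ.1| ≤ 5 / 8 * (2 ^ a * (1 / 2 ^ m'))) :
    Q / 2 ^ a ≤ |s i - s i'| * (1 / 2 ^ m') := by
  have e2a : (0:ℝ) < 2 ^ a := by positivity
  have e2m' : (0:ℝ) < 2 ^ m' := by positivity
  by_cases hbig : Q / 2 ^ a ≤ |s i - s i'| * (1 / 2 ^ m')
  · exact hbig
  · rw [not_le] at hbig
    have o3 : |(s i - s i') * (z'.1 - ζ.1)| ≤ 5 / 8 * Q := by
      rw [abs_mul]
      calc |s i - s i'| * |z'.1 - ζ.1| ≤ |s i - s i'| * (5 / 8 * (2 ^ a * (1 / 2 ^ m'))) := by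
            gcongr
        _ = 5 / 8 * 2 ^ a * (|s i - s i'| * (1 / 2 ^ m')) := by ring
        _ ≤ 5 / 8 * 2 ^ a * (Q / 2 ^ a) := by gcongr
        _ = 5 / 8 * Q := by field_simp
    have o5 : |(z'.2 - s i * z'.1) - (z.2 - s i * z.1)| ≤ D := by
      have e : (z'.2 - s i * z'.1) - (z.2 - s i * z.1) =
          ((z'.2 - s i' * z'.1) - (ζ.2 - s i' * ζ.1)) -
          ((z.2 - s i * z.1) - (ζ.2 - s i * ζ.1)) - (s i - s i') * (z'.1 - ζ.1) := by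
        ring
      rw [e]
      have t1 := abs_sub (((z'.2 - s i' * z'.1) - (ζ.2 - s i' * ζ.1)) -
          ((z.2 - s i * z.1) - (ζ.2 - s i * ζ.1))) ((s i - s i') * (z'.1 - ζ.1))
      have t2 := abs_sub ((z'.2 - s i' * z'.1) - (ζ.2 - s i' * ζ.1))
        ((z.2 - s i * z.1) - (ζ.2 - s i * ζ.1))
      linarith
    have key := h.sep i' i (Ne.symm hne) j' j hjj' hj'n z' hz' z hz hzz o5
    rw [abs_sub_comm] at key
    calc Q / 2 ^ a ≤ Q * 2 ^ j' * (1 / 2 ^ m') := by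
          have w1 : (1:ℝ) / 2 ^ a ≤ 2 ^ j' * (1 / 2 ^ m') := by
            rw [mul_one_div, div_le_div_iff₀ e2a e2m', one_mul, ← pow_add]
            exact pow_le_pow_right₀ (by norm_num) hj'a
          calc Q / 2 ^ a = Q * (1 / 2 ^ a) := by ring
            _ ≤ Q * (2 ^ j' * (1 / 2 ^ m')) := by gcongr
            _ = _ := by ring
      _ ≤ |s i - s i'| * (1 / 2 ^ m') := by gcongr

variable [Fintype ι] (h : TreesB u A W D Q n s c E) {hb : ℝ} (hhb : 0 < hb) (H R τ : ℝ)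
  {a : ℕ} (K : ℕ)

theorem row_off (p : {p // p ∈ h.ix hb H R τ a K}) (hH : 0 ≤ H) (_hR : 0 ≤ R) (ζ : ℝ × ℝ)
    (hζ : ζ ∈ (h.bxs hhb H R τ a K).box3 p) {j : ℕ} {z : ℝ × ℝ}
    (hz : z ∈ Erow (s p.1.1) (c p.1.1) hb H R (E p.1.1) p.1.2.2.2 j) :
    |(z.2 - s p.1.1 * z.1) - (ζ.2 - s p.1.1 * ζ.1)| ≤ H + 2 * hb + R := by
  simp only [Bxs.box3, TreesB.bxs, mem_ofPred_eq] at hζ
  obtain ⟨z1, z2, z3, z4⟩ := hζ
  obtain ⟨_, y1, y2⟩ := hz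
  rw [abs_le]
  constructor <;> linarith

/-- one half of the separation: the second box is not longer. -/
theorem TreesB.sp_aux (ha : 4 ≤ a) (hH : 0 ≤ H) (hR : 0 ≤ R) (hQ : 0 ≤ Q)
    (hD : 2 * (H + 2 * hb + R) + 5 / 8 * Q ≤ D)
    (p p' : {p // p ∈ h.ix hb H R τ a K}) (hne : p.1.1 ≠ p'.1.1) (hm : p.1.2.1 ≤ p'.1.2.1)
    (ζ : ℝ × ℝ) (hζ : ζ ∈ (h.bxs hhb H R τ a K).box3 p)
    (hζ' : ζ ∈ (h.bxs hhb H R τ a K).box3 p') :
    Q / 2 ^ a ≤ |s p.1.1 - s p'.1.1| * (1 / 2 ^ p'.1.2.1) := by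
  have hp := (h.mem_ix hb H R τ a K p.1).1 p.2
  have hp' := (h.mem_ix hb H R τ a K p'.1).1 p'.2
  obtain ⟨j, j', hjj', hj'a, hj'n, z, hz, z', hz', hzz, v1⟩ :=
    pos_aux ha hp.1 hp'.1 hm (ζ := ζ.1) hζ.1 hζ.2.1 hζ'.1 hζ'.2.1
  have o1 := row_off h hhb H R τ K p hH hR ζ hζ hz
  have o2 := row_off h hhb H R τ K p' hH hR ζ hζ' hz'
  exact off_aux h hne hQ hD hjj' hj'a hj'n hz.1 hz'.1 o1 o2 hzz v1

/-- separation of the boxes -/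
theorem TreesB.sp (ha : 4 ≤ a) (hH : 0 ≤ H) (hR : 0 ≤ R) (hQ : 0 ≤ Q)
    (hD : 2 * (H + 2 * hb + R) + 5 / 8 * Q ≤ D) :
    (h.bxs hhb H R τ a K).Sp (Q / 2 ^ a) := by
  rintro p p' hne ⟨ζ, hζ, hζ'⟩
  rcases le_total p.1.2.1 p'.1.2.1 with hm | hm
  · have h1 := h.sp_aux hhb H R τ K ha hH hR hQ hD p p' hne hm ζ hζ hζ'
    have h2 : min ((h.bxs hhb H R τ a K).lam p) ((h.bxs hhb H R τ a K).lam p') =
        1 / 2 ^ p'.1.2.1 := by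
      apply min_eq_right
      apply one_div_le_one_div_of_le (by positivity)
      exact pow_le_pow_right₀ (by norm_num) hm
    rw [h2]
    exact h1
  · have h1 := h.sp_aux hhb H R τ K ha hH hR hQ hD p' p (Ne.symm hne) hm ζ hζ' hζ
    have h2 : min ((h.bxs hhb H R τ a K).lam p) ((h.bxs hhb H R τ a K).lam p') =
        1 / 2 ^ p.1.2.1 := by
      apply min_eq_left
      apply one_div_le_one_div_of_le (by positivity)
      exact pow_le_pow_right₀ (by norm_num) hm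
    rw [h2]
    rw [abs_sub_comm] at h1
    exact h1

end Vale.Agent.P112.H8
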