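import Vale.Agent.P112.H8.BoxC
import Vale.Agent.P112.H646.GainDefs

/-!
# `[BOX]` of `H646/GainDefs.lean`, one tree: the horizontal cells

Good cells: no pair shorter than `2 ^ r` times the cell within a quarter of this length. The
cells of the boxes are the maximal good cells which are reached by the tree.
-/

open MeasureTheory Set
open scoped ENNReal

namespace Vale.Agent.P112.H8.B0

open Vale.Agent.P112.T Vale.Agent.P112.T580

/-- good cells -/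
def Gd (E : ℕ → Set (ℝ × ℝ)) (n r m : ℕ) (k : ℤ) : Prop :=
  ∀ j, m < j + r → j < n → ∀ z ∈ E j, ∀ x, q 0 m x = k → 2 ^ r * (1 / 2 ^ m) / 4 < |z.1 - x|

/-- the cells of the boxes -/
def Sel (E : ℕ → Set (ℝ × ℝ)) (n r m : ℕ) (k : ℤ) : Prop :=
  Reach E n 0 m k ∧ Gd E n r m k ∧ 1 ≤ m ∧ ∀ x, q 0 m x = k → ¬ Gd E n r (m - 1) (q 0 (m - 1) x)

variable {E : ℕ → Set (ℝ × ℝ)} {n r : ℕ}

theorem Gd.succ {m : ℕ} {x : ℝ} (h : Gd E n r m (q 0 m x)) : Gd E n r (m + 1) (q 0 (m + 1) x) := by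
  intro j hj hjn z hz x' hx'
  have h1 := h j (by omega) hjn z hz x' (q_nest 0 m x' x hx')
  have h2 : (1:ℝ) / 2 ^ (m + 1) ≤ 1 / 2 ^ m := by
    apply div_le_div_of_nonneg_left (by norm_num) (by positivity)
    exact pow_le_pow_right₀ (by norm_num) (by omega)
  have h3 : (2:ℝ) ^ r * (1 / 2 ^ (m + 1)) ≤ 2 ^ r * (1 / 2 ^ m) := by gcongr
  linarith

theorem Gd.le {m m' : ℕ} (hm : m ≤ m') {x : ℝ} (h : Gd E n r m (q 0 m x)) :
    Gd E n r m' (q 0 m' x) := by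
  induction m', hm using Nat.le_induction with
  | base => exact h
  | succ k _ ih => exact ih.succ

theorem Gd.top {m : ℕ} (hm : n + r ≤ m + 1) (k : ℤ) : Gd E n r m k := by
  intro j hj hjn
  omega

/-- a reaching pair of a good cell is long -/
theorem Gd.long {m : ℕ} {k : ℤ} (h : Gd E n r m k) {j : ℕ} (hj : j < n) {z : ℝ × ℝ} (hz : z ∈ E j)
    {x : ℝ} (hx : q 0 m x = k) (hr : |z.1 - x| ≤ 1 / (8 * 2 ^ j)) : j + r ≤ m := by
  by_contra hc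
  have h1 := h j (by omega) hj z hz x hx
  have h2 : (1:ℝ) / 2 ^ j ≤ 2 ^ r * (1 / 2 ^ m) := by
    rw [mul_one_div, div_le_div_iff₀ (by positivity) (by positivity), one_mul, ← pow_add]
    exact pow_le_pow_right₀ (by norm_num) (by omega)
  have h3 : (1:ℝ) / (8 * 2 ^ j) = 1 / 8 * (1 / 2 ^ j) := by field_simp
  have h4 : (0:ℝ) < 1 / 2 ^ j := by positivity
  rw [h3] at hr
  linarith

/-- every reached point lies in a selected cell -/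
theorem exists_sel (ha : 1 ≤ r) {j : ℕ} (hj : j < n) {z : ℝ × ℝ} (hz : z ∈ E j) {x : ℝ}
    (hr : |z.1 - x| ≤ 1 / (8 * 2 ^ j)) : ∃ m, Sel E n r m (q 0 m x) := by
  classical
  have hex : ∃ m, Gd E n r m (q 0 m x) := ⟨n + r, Gd.top (by omega) _⟩
  set m := Nat.find hex with hm
  have h1 : Gd E n r m (q 0 m x) := Nat.find_spec hex
  have h2 := h1.long hj hz rfl hr
  refine ⟨m, ⟨j, hj, z, hz, x, rfl, hr⟩, h1, by omega, ?_⟩
  intro x' hx' hc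
  have h3 : q 0 (m - 1) x' = q 0 (m - 1) x := by
    apply q_nest 0 (m - 1) x' x
    have : m - 1 + 1 = m := by omega
    rw [this]; exact hx'
  rw [h3] at hc
  exact Nat.find_min hex (by omega : m - 1 < m) hc

/-- the selected cells are disjoint -/
theorem sel_unique {m m' : ℕ} {x : ℝ} (h : Sel E n r m (q 0 m x)) (h' : Sel E n r m' (q 0 m' x)) :
    m = m' := by
  by_contra hne
  rcases lt_or_gt_of_ne hne with h1 | h1
  · exact h'.2.2.2 x rfl (h.2.1.le (by omega))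
  · exact h.2.2.2 x rfl (h'.2.1.le (by omega))

theorem Sel.lt {m : ℕ} {k : ℤ} (h : Sel E n r m k) : m < n + r := by
  obtain ⟨⟨j, hj, z, hz, x, hx, hr⟩, h1, h2, h3⟩ := h
  by_contra hc
  exact h3 x hx (Gd.top (by omega) _)

/-- selected cells have level at least `r` -/
theorem Sel.le_level {m : ℕ} {k : ℤ} (hs : Sel E n r m k) : ∃ j < n, j + r ≤ m ∧ ∃ z ∈ E j,
    ∃ x, q 0 m x = k ∧ |z.1 - x| ≤ 1 / (8 * 2 ^ j) := by
  obtain ⟨⟨j, hj, z, hz, x', hx', hr⟩, h1, _⟩ := hs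
  exact ⟨j, hj, h1.long hj hz hx' hr, z, hz, x', hx', hr⟩

/-- the horizontal position of the pairs of two meeting boxes; `m ≤ m'`. -/
theorem pos_aux {E' : ℕ → Set (ℝ × ℝ)} (ha : 4 ≤ r) {m m' : ℕ} {k k' : ℤ}
    (hp : Sel E n r m k) (hp' : Sel E' n r m' k') (hm : m ≤ m') {ζ : ℝ}
    (h1 : 0 + k / 2 ^ m - 1 / 2 ^ m ≤ ζ) (h2 : ζ < 0 + k / 2 ^ m + 2 * (1 / 2 ^ m))
    (h1' : 0 + k' / 2 ^ m' - 1 / 2 ^ m' ≤ ζ) (h2' : ζ < 0 + k' / 2 ^ m' + 2 * (1 / 2 ^ m')) :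
    ∃ j j' : ℕ, j ≤ j' ∧ m' ≤ j' + r ∧ j' < n ∧ ∃ z ∈ E j, ∃ z' ∈ E' j',
      |z'.1 - z.1| ≤ 1 / 2 ^ j ∧ |z'.1 - ζ| ≤ 11 / 16 * (2 ^ r * (1 / 2 ^ m')) := by
  have e2m : (0:ℝ) < 2 ^ m := by positivity
  have e2m' : (0:ℝ) < 2 ^ m' := by positivity
  have e2a : (0:ℝ) < 2 ^ r := by positivity
  have ea16 : (16:ℝ) ≤ 2 ^ r := by
    calc (16:ℝ) = 2 ^ 4 := by norm_num
      _ ≤ 2 ^ r := pow_le_pow_right₀ (by norm_num) ha
  have elam : (1:ℝ) / 2 ^ m' ≤ 1 / 2 ^ m := by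
    apply one_div_le_one_div_of_le e2m
    exact pow_le_pow_right₀ (by norm_num) hm
  obtain ⟨j, hj, hja, z, hz, x, hx, hr⟩ := hp.le_level
  obtain ⟨⟨j2, hj2, w2, hw2, x2, hx2, hr2⟩, hg2, hm1, hng⟩ := hp'
  have hbad := hng x2 hx2
  unfold Gd at hbad
  push Not at hbad
  obtain ⟨j', hj'a, hj'n, z', hz', x', hx', hr'⟩ := hbad
  have hpar : (1:ℝ) / 2 ^ (m' - 1) = 2 * (1 / 2 ^ m') := by
    have : (2:ℝ) ^ m' = 2 ^ (m' - 1) * 2 := by
      rw [← pow_succ]; congr 1; omega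
    rw [this]
    field_simp
  rw [hpar] at hr'
  have hdx := par_dist hm1 hx2 hx' h1' h2'
  have hζx := tri_dist hx h1 h2
  have hj' : m' ≤ j' + r := by omega
  have hjj' : j ≤ j' := by omega
  have s2 : (1:ℝ) / (8 * 2 ^ j) = 1 / 8 * (1 / 2 ^ j) := by field_simp
  have s3 : (3:ℝ) / 2 ^ m' = 3 * (1 / 2 ^ m') := by ring
  have s4 : (2:ℝ) / 2 ^ m = 2 * (1 / 2 ^ m) := by ring
  have hlm : (2:ℝ) ^ r * (1 / 2 ^ m) ≤ 1 / 2 ^ j := by
    rw [mul_one_div, div_le_div_iff₀ e2m (by positivity), one_mul, ← pow_add]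
    exact pow_le_pow_right₀ (by norm_num) (by omega)
  have h16 : 16 * (1 / 2 ^ m) ≤ (2:ℝ) ^ r * (1 / 2 ^ m) := by gcongr
  have h16' : 16 * (1 / 2 ^ m') ≤ (2:ℝ) ^ r * (1 / 2 ^ m') := by gcongr
  have hlm' : (2:ℝ) ^ r * (1 / 2 ^ m') ≤ 2 ^ r * (1 / 2 ^ m) := by gcongr
  rw [s2] at hr
  rw [s3] at hdx
  rw [s4] at hζx
  have hz'ζ : |z'.1 - ζ| ≤ 1 / 2 * (2 ^ r * (1 / 2 ^ m')) + 3 * (1 / 2 ^ m') := by
    have t1 : |z'.1 - ζ| ≤ |z'.1 - x'| + |x' - ζ| := abs_sub_le _ _ _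
    rw [abs_sub_comm x' ζ] at t1
    linarith
  have p1 : (0:ℝ) < 1 / 2 ^ m := by positivity
  have p2 : (0:ℝ) < 1 / 2 ^ m' := by positivity
  have p3 : (0:ℝ) < 1 / 2 ^ j := by positivity
  refine ⟨j, j', hjj', hj', hj'n, z, hz, z', hz', ?_, ?_⟩
  · have t1 : |z'.1 - z.1| ≤ |z'.1 - ζ| + |ζ - z.1| := abs_sub_le _ _ _
    have t2 : |ζ - z.1| ≤ |ζ - x| + |x - z.1| := abs_sub_le _ _ _
    rw [abs_sub_comm x z.1] at t2
    linarith
  · linarith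

end Vale.Agent.P112.H8.B0
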