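import Vale.Agent.P112.H8.Bx0A

/-!
# `[BOX]` of `H646/GainDefs.lean`: the boxes of a family of trees
-/

open MeasureTheory Set
open scoped ENNReal

noncomputable section

namespace Vale.Agent.P112.H8.B0

open Vale.Agent.P112.T Vale.Agent.P112.T580 Vale.Agent.P112.H371 Vale.Agent.P112.H646
  Vale.Agent.P112.H646.Gain

variable {ι : Type} {u : ℝ × ℝ → ℝ} {S Q θ H0 : ℝ} {n : ℕ} {s : ι → ℝ}
  {E : ι → ℕ → Set (ℝ × ℝ)}

/-- the pairs which are seen from the windows of the row `l` -/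
def Er (s θ H0 S : ℝ) (E : ℕ → Set (ℝ × ℝ)) (l : ℤ) (j : ℕ) : Set (ℝ × ℝ) :=
  {z | z ∈ E j ∧ l * (θ * H0) - (3 + S) ≤ z.2 - s * z.1 ∧
    z.2 - s * z.1 ≤ l * (θ * H0) + (1 + θ) * H0 + (3 + S)}

/-- the box indices: tree, level, cell, row -/
def BSet (s : ι → ℝ) (θ H0 S : ℝ) (E : ι → ℕ → Set (ℝ × ℝ)) (n r : ℕ) : Set (ι × ℕ × ℤ × ℤ) :=
  {p | Sel (Er (s p.1) θ H0 S (E p.1) p.2.2.2) n r p.2.1 p.2.2.1}

/-- the boxes -/
def bxs (s : ι → ℝ) (hh : 0 < θ * H0) (S : ℝ) (E : ι → ℕ → Set (ℝ × ℝ)) (n r : ℕ) :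
    Bxs ι {p // p ∈ BSet s θ H0 S E n r} where
  s := s
  tb := fun p => p.1.1
  x0 := fun p => 0 + p.1.2.2.1 / 2 ^ p.1.2.1
  lam := fun p => 1 / 2 ^ p.1.2.1
  y0 := fun p => p.1.2.2.2 * (θ * H0)
  h := fun _ => θ * H0
  lam_pos := fun _ => by positivity
  h_pos := fun _ => hh

theorem k_bd {E : ℕ → Set (ℝ × ℝ)} {n r m : ℕ} {k : ℤ} {ρ : ℝ} {N : ℕ}
    (hN : 2 ^ (n + r) * (|ρ| + 1) + 1 ≤ (N : ℝ)) (hρ : ∀ j, ∀ z ∈ E j, |z.1| ≤ ρ)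
    (h : Sel E n r m k) : |k| ≤ (N : ℤ) := by
  have hm := h.lt
  obtain ⟨j, hj, z, hz, x, hx, hrr⟩ := h.1
  obtain ⟨d1, d2⟩ := (q_eq_iff 0 m x _).1 hx
  rw [sub_zero] at d1 d2
  have hm2 : (2:ℝ) ^ m ≤ 2 ^ (n + r) := pow_le_pow_right₀ (by norm_num) (by omega)
  have hj1 : (1:ℝ) / (8 * 2 ^ j) ≤ 1 := by
    rw [div_le_one (by positivity)]
    have : (1:ℝ) ≤ 2 ^ j := one_le_pow₀ (by norm_num)
    linarith
  have h6 : |x| ≤ |ρ| + 1 := by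
    have e1 := hρ j z hz
    have e2 := le_abs_self ρ
    have e4 : |x| ≤ |x - z.1| + |z.1| := by
      have := abs_add_le (x - z.1) z.1
      rwa [sub_add_cancel] at this
    rw [abs_sub_comm] at hrr
    linarith
  have h7 : |2 ^ m * x| ≤ 2 ^ (n + r) * (|ρ| + 1) := by
    rw [abs_mul, abs_of_pos (by positivity)]
    exact mul_le_mul hm2 h6 (abs_nonneg _) (by positivity)
  have h8 : |(k : ℝ)| ≤ N := by
    rw [abs_le] at h7 ⊢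
    constructor <;> linarith
  exact_mod_cast h8

theorem l_bd {E : ℕ → Set (ℝ × ℝ)} {s : ℝ} (hh : 0 < θ * H0) {W : ℝ} {N : ℕ} {l : ℤ}
    (hN : (W + (1 + θ) * H0 + (3 + S)) / (θ * H0) ≤ (N : ℝ)) (hH0 : 0 ≤ (1 + θ) * H0)
    (hW : ∀ j, ∀ z ∈ E j, |z.2 - s * z.1| ≤ W) {j : ℕ} {z : ℝ × ℝ}
    (hz : z ∈ Er s θ H0 S E l j) : |l| ≤ (N : ℤ) := by
  obtain ⟨h1, h2, h3⟩ := hz
  have h4 := hW j z h1
  rw [div_le_iff₀ hh] at hN
  rw [abs_le] at h4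
  have h5 : (l:ℝ) * (θ * H0) ≤ N * (θ * H0) := by linarith
  have h6 : (-(N:ℝ)) * (θ * H0) ≤ l * (θ * H0) := by linarith
  have h7 := le_of_mul_le_mul_right h5 hh
  have h8 := le_of_mul_le_mul_right h6 hh
  have h9 : |(l : ℝ)| ≤ N := by
    rw [abs_le]
    exact ⟨h8, h7⟩
  exact_mod_cast h9

theorem off_bd [Fintype ι] {ρ : ℝ} (hρ : ∀ i j, ∀ z ∈ E i j, |z.1| ≤ ρ ∧ |z.2| ≤ ρ) (i : ι) (j : ℕ)
    (z : ℝ × ℝ) (hz : z ∈ E i j) : |z.2 - s i * z.1| ≤ |ρ| + (∑ i, |s i|) * |ρ| := by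
  obtain ⟨h1, h2⟩ := hρ i j z hz
  have e := le_abs_self ρ
  have h3 : |s i| ≤ ∑ i, |s i| :=
    Finset.single_le_sum (f := fun i => |s i|) (fun _ _ => abs_nonneg _) (Finset.mem_univ i)
  have h4 : |s i * z.1| ≤ (∑ i, |s i|) * |ρ| := by
    rw [abs_mul]
    exact mul_le_mul h3 (by linarith) (abs_nonneg _) (Finset.sum_nonneg fun _ _ => abs_nonneg _)
  have h5 := abs_sub z.2 (s i * z.1)
  linarith

theorem fin [Fintype ι] (h : SepTrees u S Q n s E) (hθ : 0 < θ) (hH : 0 < H0) (r : ℕ) :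
    (BSet s θ H0 S E n r).Finite := by
  classical
  obtain ⟨ρ, hρ⟩ := h.bdd
  obtain ⟨N, hN⟩ := exists_nat_ge (2 ^ (n + r) * (|ρ| + 1) + 1)
  obtain ⟨N', hN'⟩ := exists_nat_ge
    ((|ρ| + (∑ i, |s i|) * |ρ| + (1 + θ) * H0 + (3 + S)) / (θ * H0))
  refine ((Finset.univ ×ˢ Finset.range (n + r) ×ˢ Finset.Icc (-(N:ℤ)) N ×ˢ
    Finset.Icc (-(N':ℤ)) N' : Finset (ι × ℕ × ℤ × ℤ)).finite_toSet).subset ?_
  rintro ⟨i, m, k, l⟩ h1
  have h1' : Sel (Er (s i) θ H0 S (E i) l) n r m k := h1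
  simp only [Finset.coe_product, mem_prod, Finset.mem_coe, Finset.mem_univ, Finset.mem_range,
    Finset.mem_Icc, true_and]
  refine ⟨h1'.lt, ?_, ?_⟩
  · exact abs_le.mp (k_bd hN (fun j z hz => (hρ i j z hz.1).1) h1')
  · obtain ⟨j, hj, z, hz, _⟩ := h1'.1
    exact abs_le.mp (l_bd (by positivity) hN' (by positivity)
      (fun j z hz => off_bd hρ i j z hz) hz)

section

variable (hh : 0 < θ * H0)

theorem mem_cell (r : ℕ) (p : {p // p ∈ BSet s θ H0 S E n r}) (x : ℝ) :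
    x ∈ Ico ((bxs s hh S E n r).x0 p) ((bxs s hh S E n r).x0 p + (bxs s hh S E n r).lam p) ↔
      q 0 p.1.2.1 x = p.1.2.2.1 := by
  have h1 := q_cell 0 p.1.2.1 p.1.2.2.1
  have h2 : (bxs s hh S E n r).x0 p + (bxs s hh S E n r).lam p =
      0 + ((p.1.2.2.1 : ℝ) + 1) / 2 ^ p.1.2.1 := by
    simp only [bxs]
    ring
  rw [h2]
  simp only [bxs]
  rw [← h1]
  rfl

theorem mem_row (r : ℕ) (p : {p // p ∈ BSet s θ H0 S E n r}) (v : ℝ) :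
    v ∈ Ico ((bxs s hh S E n r).y0 p) ((bxs s hh S E n r).y0 p + (bxs s hh S E n r).h p) ↔
      ⌊v / (θ * H0)⌋ = p.1.2.2.2 := by
  rw [Int.floor_eq_iff, mem_Ico, le_div_iff₀ hh, div_lt_iff₀ hh]
  simp only [bxs]
  constructor
  · rintro ⟨h1, h2⟩; constructor <;> linarith
  · rintro ⟨h1, h2⟩; constructor <;> linarith

theorem mem_box (r : ℕ) (p : {p // p ∈ BSet s θ H0 S E n r}) (w : ℝ × ℝ) :
    w ∈ (bxs s hh S E n r).box p ↔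
      q 0 p.1.2.1 w.1 = p.1.2.2.1 ∧ ⌊w.2 / (θ * H0)⌋ = p.1.2.2.2 := by
  rw [Bxs.box, mem_prod, mem_cell hh, mem_row hh]

theorem bxs_disj (r : ℕ) : (bxs s hh S E n r).Disj := by
  rintro p p' hpp hne
  have hpp' : p.1.1 = p'.1.1 := hpp
  rw [Set.disjoint_left]
  intro w hw hw'
  rw [mem_box hh] at hw hw'
  apply hne
  obtain ⟨⟨i, m, k, l⟩, hp⟩ := p
  obtain ⟨⟨i', m', k', l'⟩, hp'⟩ := p'
  simp only at hpp' hw hw'
  subst hpp'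
  obtain ⟨h1, h2⟩ := hw
  obtain ⟨h1', h2'⟩ := hw'
  have hs : Sel (Er (s i) θ H0 S (E i) l) n r m k := hp
  have hs' : Sel (Er (s i) θ H0 S (E i) l') n r m' k' := hp'
  have hl : l = l' := h2.symm.trans h2'
  subst hl
  rw [← h1] at hs
  rw [← h1'] at hs'
  have hm := sel_unique hs hs'
  subst hm
  have hk : k = k' := h1.symm.trans h1'
  subst hk
  rfl

/-- a nonzero value of a tree function has a reaching pair -/
theorem near {M : ℕ} {κ : Ker M} {g : ℝ × ℝ → ℝ} (h : SepTrees u S Q n s E) {i : ι} {x t : ℝ}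
    (hne : tg κ u g n s E i (x, t) ≠ 0) : ∃ j < n, ∃ z ∈ E i j, |z.1 - x| ≤ 1 / (8 * 2 ^ j) ∧
      |z.2 - s i * z.1 - t| ≤ 1 + S / 8 := by
  unfold tg at hne
  simp only [ne_eq, Complex.ofReal_eq_zero] at hne
  obtain ⟨j, hj, z, hz, h1, h2⟩ := FS_ne κ hne
  simp only at h1 h2
  refine ⟨j, hj, z, hz, h1, ?_⟩
  have e3 : |(z.1 - x) * (u z - s i)| ≤ S / 8 := by
    rw [abs_mul]
    calc |z.1 - x| * |u z - s i| ≤ 1 / (8 * 2 ^ j) * (S * 2 ^ j) := by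
          gcongr
          exact h.slope i j z hz
      _ = S / 8 := by field_simp
  have e4 : z.2 - s i * z.1 - t = (z.2 - (t + s i * x) - (z.1 - x) * u z) +
      (z.1 - x) * (u z - s i) := by ring
  rw [e4]
  exact (abs_add_le _ _).trans (by linarith)

/-- the window of a box -/
abbrev win (r : ℕ) (p : {p // p ∈ BSet s θ H0 S E n r}) : Set ℝ :=
  Ioo ((bxs s hh S E n r).y0 p) ((bxs s hh S E n r).y0 p + (1 + θ) * H0)

/-- the occupancy of a box -/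
def oc (r : ℕ) (p : {p // p ∈ BSet s θ H0 S E n r}) : ℝ≥0∞ :=
  volume (win hh r p ∩ Ao s E r (3 + S) (bxs s hh S E n r) p)

theorem Ioc_win {r : ℕ} {p : {p // p ∈ BSet s θ H0 S E n r}} {w : ℝ × ℝ}
    (hw : w ∈ (bxs s hh S E n r).box p) {t : ℝ} (ht : t ∈ Ioc w.2 (w.2 + H0)) :
    t ∈ win hh r p := by
  have h1 := hw.2
  simp only [bxs, mem_Ico] at h1
  simp only [win, bxs, mem_Ioo]
  obtain ⟨h2, h3⟩ := ht
  constructor
  · linarith [h1.1]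
  · linarith [h1.2]

/-- the active pair is in the row, hence long -/
theorem act_long {r : ℕ} (hS : 0 ≤ S) {p : {p // p ∈ BSet s θ H0 S E n r}} {x : ℝ}
    (hx : q 0 p.1.2.1 x = p.1.2.2.1) {t : ℝ} (ht : t ∈ win hh r p) {j : ℕ} (hj : j < n)
    {z : ℝ × ℝ} (hz : z ∈ E p.1.1 j) (h1 : |z.1 - x| ≤ 1 / (8 * 2 ^ j))
    (h2 : |z.2 - s p.1.1 * z.1 - t| ≤ 1 + S / 8) :
    (2:ℝ) ^ r * (bxs s hh S E n r).lam p ≤ 1 / 2 ^ j := by
  have hs : Sel (Er (s p.1.1) θ H0 S (E p.1.1) p.1.2.2.2) n r p.1.2.1 p.1.2.2.1 := p.2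
  have hz' : z ∈ Er (s p.1.1) θ H0 S (E p.1.1) p.1.2.2.2 j := by
    simp only [win, bxs, mem_Ioo] at ht
    rw [abs_le] at h2
    exact ⟨hz, by linarith [h2.1, ht.1], by linarith [h2.2, ht.2]⟩
  have h3 := hs.2.1.long hj hz' hx h1
  simp only [bxs]
  rw [mul_one_div, div_le_div_iff₀ (by positivity) (by positivity), one_mul, ← pow_add]
  exact pow_le_pow_right₀ (by norm_num) (by omega)

theorem sub_oc {M : ℕ} {κ : Ker M} {g : ℝ × ℝ → ℝ} (h : SepTrees u S Q n s E) (hS : 0 ≤ S)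
    {r : ℕ} {p : {p // p ∈ BSet s θ H0 S E n r}} {w : ℝ × ℝ}
    (hw : w ∈ (bxs s hh S E n r).box p) :
    {t | t ∈ Ioc w.2 (w.2 + H0) ∧ tg κ u g n s E p.1.1 (w.1, t) ≠ 0} ⊆
      win hh r p ∩ Ao s E r (3 + S) (bxs s hh S E n r) p := by
  rintro t ⟨ht, hne⟩
  obtain ⟨j, hj, z, hz, h1, h2⟩ := near h hne
  have ht' := Ioc_win hh hw ht
  have hx := (mem_cell hh r p w.1).1 hw.1
  refine ⟨ht', j, act_long hh hS hx ht' hj hz h1 h2, z, hz, ⟨w.1, hw.1, h1⟩, ?_⟩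
  have h4 : |z.2 - s p.1.1 * z.1 - t| ≤ 3 + S := by linarith
  exact h4

theorem one_le_vol {A B t : ℝ} (hAB : 1 ≤ B - A) (ht : t ∈ Ioo A B) {F : Set ℝ}
    (hF : ∀ t', |t' - t| ≤ 1 → t' ∈ F) : 1 ≤ volume (Ioo A B ∩ F) := by
  obtain ⟨h1, h2⟩ := ht
  have hsub : Ioo (max (t - 1) A) (min (t + 1) B) ⊆ Ioo A B ∩ F := by
    rintro v ⟨hv1, hv2⟩
    rw [max_lt_iff] at hv1
    rw [lt_min_iff] at hv2
    exact ⟨⟨hv1.2, hv2.2⟩, hF v (by rw [abs_le]; constructor <;> linarith [hv1.1, hv2.1])⟩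
  refine le_trans ?_ (measure_mono hsub)
  rw [Real.volume_Ioo, ← ENNReal.ofReal_one]
  apply ENNReal.ofReal_le_ofReal
  rcases le_total (t - 1) A with h3 | h3 <;> rcases le_total (t + 1) B with h4 | h4
  · rw [max_eq_right h3, min_eq_left h4]; linarith
  · rw [max_eq_right h3, min_eq_right h4]; linarith
  · rw [max_eq_left h3, min_eq_left h4]; linarith
  · rw [max_eq_left h3, min_eq_right h4]; linarith

theorem one_le_oc (hH : 1 < H0) (hS : 0 ≤ S) {r : ℕ}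
    {p : {p // p ∈ BSet s θ H0 S E n r}} {x : ℝ} (hx : q 0 p.1.2.1 x = p.1.2.2.1) {t : ℝ}
    (ht : t ∈ win hh r p) {j : ℕ} (hj : j < n) {z : ℝ × ℝ} (hz : z ∈ E p.1.1 j)
    (h1 : |z.1 - x| ≤ 1 / (8 * 2 ^ j)) (h2 : |z.2 - s p.1.1 * z.1 - t| ≤ 1 + S / 8) :
    1 ≤ oc hh r p := by
  unfold oc
  apply one_le_vol (t := t) ?_ ht
  · intro t' ht'
    refine ⟨j, act_long hh hS hx ht hj hz h1 h2, z, hz, ⟨x, (mem_cell hh r p x).2 hx, h1⟩, ?_⟩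
    have h4 : |z.2 - s p.1.1 * z.1 - t'| ≤ 3 + S := by
      have e : z.2 - s p.1.1 * z.1 - t' = (z.2 - s p.1.1 * z.1 - t) - (t' - t) := by ring
      rw [e]
      exact (abs_sub _ _).trans (by linarith)
    exact h4
  · have : 0 < θ * H0 := hh
    nlinarith

/-- every reached point of a row lies in a box -/
theorem mem_some (r : ℕ) (hr : 1 ≤ r) (hS : 0 ≤ S) (i : ι) (w : ℝ × ℝ) {t : ℝ}
    (ht : t ∈ Ioc w.2 (w.2 + H0)) {j : ℕ} (hj : j < n) {z : ℝ × ℝ} (hz : z ∈ E i j)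
    (h1 : |z.1 - w.1| ≤ 1 / (8 * 2 ^ j)) (h2 : |z.2 - s i * z.1 - t| ≤ 1 + S / 8) :
    ∃ p : {p // p ∈ BSet s θ H0 S E n r}, p.1.1 = i ∧ w ∈ (bxs s hh S E n r).box p := by
  set l := ⌊w.2 / (θ * H0)⌋ with hl
  have hl1 : (l:ℝ) * (θ * H0) ≤ w.2 := by
    have := Int.floor_le (w.2 / (θ * H0))
    rwa [← hl, le_div_iff₀ hh] at this
  have hl2 : w.2 < (l + 1) * (θ * H0) := by
    have := Int.lt_floor_add_one (w.2 / (θ * H0))
    rwa [← hl, div_lt_iff₀ hh] at this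
  have hz' : z ∈ Er (s i) θ H0 S (E i) l j := by
    rw [abs_le] at h2
    obtain ⟨ht1, ht2⟩ := ht
    exact ⟨hz, by linarith [h2.1], by linarith [h2.2]⟩
  obtain ⟨m, hm⟩ := exists_sel hr hj hz' h1
  refine ⟨⟨(i, m, q 0 m w.1, l), hm⟩, rfl, ?_⟩
  rw [mem_box hh]
  exact ⟨rfl, rfl⟩

end

end Vale.Agent.P112.H8.B0
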