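import Vale.Agent.P112.H8.Bx0B

/-!
# `[BOX]` of `H646/GainDefs.lean`: `StBox0`
-/

open MeasureTheory Set
open scoped ENNReal

noncomputable section

namespace Vale.Agent.P112.H8.B0

open Vale.Agent.P112.T Vale.Agent.P112.T580 Vale.Agent.P112.H371 Vale.Agent.P112.H646
  Vale.Agent.P112.H646.Gain

variable {ι : Type} {u : ℝ × ℝ → ℝ} {S Q θ H0 : ℝ} {n : ℕ} {s : ι → ℝ}
  {E : ι → ℕ → Set (ℝ × ℝ)}

/-! ### separation -/

/-- the offset of the pair of the shorter box relative to the longer tree; `V` = vertical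
distance of the pairs and the common point, in the coordinates of their own trees. -/
theorem off_aux (h : SepTrees u S Q n s E) {i i' : ι} (hne : i ≠ i') {r : ℕ} {m' : ℕ}
    {V : ℝ} (hQ : 0 ≤ Q) (hD : 2 * V + 11 / 16 * Q ≤ Q) {ζ : ℝ × ℝ} {j j' : ℕ}
    (hjj' : j ≤ j') (hj'a : m' ≤ j' + r) {z z' : ℝ × ℝ} (hz : z ∈ E i j)
    (hz' : z' ∈ E i' j') (o1 : |(z.2 - s i * z.1) - (ζ.2 - s i * ζ.1)| ≤ V)
    (o2 : |(z'.2 - s i' * z'.1) - (ζ.2 - s i' * ζ.1)| ≤ V)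
    (hzz : |z'.1 - z.1| ≤ 1 / 2 ^ j)
    (v1 : |z'.1 - ζ.1| ≤ 11 / 16 * (2 ^ r * (1 / 2 ^ m'))) :
    Q / 2 ^ r ≤ |s i - s i'| * (1 / 2 ^ m') := by
  have e2a : (0:ℝ) < 2 ^ r := by positivity
  have e2m' : (0:ℝ) < 2 ^ m' := by positivity
  by_cases hbig : Q / 2 ^ r ≤ |s i - s i'| * (1 / 2 ^ m')
  · exact hbig
  · rw [not_le] at hbig
    have o3 : |(s i - s i') * (z'.1 - ζ.1)| ≤ 11 / 16 * Q := by
      rw [abs_mul]
      calc |s i - s i'| * |z'.1 - ζ.1| ≤ |s i - s i'| * (11 / 16 * (2 ^ r * (1 / 2 ^ m'))) := by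
            gcongr
        _ = 11 / 16 * 2 ^ r * (|s i - s i'| * (1 / 2 ^ m')) := by ring
        _ ≤ 11 / 16 * 2 ^ r * (Q / 2 ^ r) := by gcongr
        _ = 11 / 16 * Q := by field_simp
    have o5 : |(z'.2 - s i * z'.1) - (z.2 - s i * z.1)| ≤ Q := by
      have e : (z'.2 - s i * z'.1) - (z.2 - s i * z.1) =
          ((z'.2 - s i' * z'.1) - (ζ.2 - s i' * ζ.1)) -
          ((z.2 - s i * z.1) - (ζ.2 - s i * ζ.1)) - (s i - s i') * (z'.1 - ζ.1) := by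
        ring
      rw [e]
      have t1 := abs_sub (((z'.2 - s i' * z'.1) - (ζ.2 - s i' * ζ.1)) -
          ((z.2 - s i * z.1) - (ζ.2 - s i * ζ.1))) ((s i - s i') * (z'.1 - ζ.1))
      have t2 := abs_sub ((z'.2 - s i' * z'.1) - (ζ.2 - s i' * ζ.1))
        ((z.2 - s i * z.1) - (ζ.2 - s i * ζ.1))
      linarith
    have hzz4 : |z'.1 - z.1| ≤ 4 / 2 ^ j := by
      have e4 : (1:ℝ) / 2 ^ j ≤ 4 / 2 ^ j := by gcongr; norm_num
      linarith
    have key := h.sep i' i (Ne.symm hne) j' j hjj' z' hz' z hz hzz4 o5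
    rw [abs_sub_comm] at key
    calc Q / 2 ^ r ≤ Q * 2 ^ j' * (1 / 2 ^ m') := by
          have w1 : (1:ℝ) / 2 ^ r ≤ 2 ^ j' * (1 / 2 ^ m') := by
            rw [mul_one_div, div_le_div_iff₀ e2a e2m', one_mul, ← pow_add]
            exact pow_le_pow_right₀ (by norm_num) hj'a
          calc Q / 2 ^ r = Q * (1 / 2 ^ r) := by ring
            _ ≤ Q * (2 ^ j' * (1 / 2 ^ m')) := by gcongr
            _ = _ := by ring
      _ ≤ |s i - s i'| * (1 / 2 ^ m') := by gcongr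

section

variable (hh : 0 < θ * H0)

theorem row_off (hH : 0 ≤ H0) {r : ℕ} (p : {p // p ∈ BSet s θ H0 S E n r})
    (ζ : ℝ × ℝ) (hζ : ζ ∈ big (bxs s hh S E n r) p) {j : ℕ} {z : ℝ × ℝ}
    (hz : z ∈ Er (s p.1.1) θ H0 S (E p.1.1) p.1.2.2.2 j) :
    |(z.2 - s p.1.1 * z.1) - (ζ.2 - s p.1.1 * ζ.1)| ≤ H0 + 2 * (θ * H0) + (3 + S) := by
  simp only [big, bxs, mem_ofPred_eq] at hζ
  obtain ⟨z1, z2, z3, z4⟩ := hζ
  obtain ⟨_, y1, y2⟩ := hz
  rw [abs_le]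
  constructor <;> linarith

/-- one half of the separation: the second box is not longer. -/
theorem sp_aux (h : SepTrees u S Q n s E) {r : ℕ} (hr : 4 ≤ r) (hH : 0 ≤ H0)
    (hQ : 0 ≤ Q) (hD : 2 * (H0 + 2 * (θ * H0) + (3 + S)) + 11 / 16 * Q ≤ Q)
    (p p' : {p // p ∈ BSet s θ H0 S E n r}) (hne : p.1.1 ≠ p'.1.1) (hm : p.1.2.1 ≤ p'.1.2.1)
    (ζ : ℝ × ℝ) (hζ : ζ ∈ big (bxs s hh S E n r) p) (hζ' : ζ ∈ big (bxs s hh S E n r) p') :
    Q / 2 ^ r ≤ |s p.1.1 - s p'.1.1| * (1 / 2 ^ p'.1.2.1) := by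
  have hp : Sel (Er (s p.1.1) θ H0 S (E p.1.1) p.1.2.2.2) n r p.1.2.1 p.1.2.2.1 := p.2
  have hp' : Sel (Er (s p'.1.1) θ H0 S (E p'.1.1) p'.1.2.2.2) n r p'.1.2.1 p'.1.2.2.1 := p'.2
  obtain ⟨j, j', hjj', hj'a, hj'n, z, hz, z', hz', hzz, v1⟩ :=
    pos_aux hr hp hp' hm (ζ := ζ.1) hζ.1 hζ.2.1 hζ'.1 hζ'.2.1
  have o1 := row_off hh hH p ζ hζ hz
  have o2 := row_off hh hH p' ζ hζ' hz'
  exact off_aux h hne hQ hD hjj' hj'a hz.1 hz'.1 o1 o2 hzz v1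

/-- separation of the boxes -/
theorem sp (h : SepTrees u S Q n s E) {r : ℕ} (hr : 4 ≤ r) (hH : 0 ≤ H0)
    (hQ : 0 ≤ Q) (hD : 2 * (H0 + 2 * (θ * H0) + (3 + S)) + 11 / 16 * Q ≤ Q)
    (p p' : {p // p ∈ BSet s θ H0 S E n r}) (hne : p.1.1 ≠ p'.1.1)
    (hb : (big (bxs s hh S E n r) p ∩ big (bxs s hh S E n r) p').Nonempty) :
    Q / 2 ^ r ≤ |s p.1.1 - s p'.1.1| *
      min ((bxs s hh S E n r).lam p) ((bxs s hh S E n r).lam p') := by
  obtain ⟨ζ, hζ, hζ'⟩ := hb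
  rcases le_total p.1.2.1 p'.1.2.1 with hm | hm
  · have h1 := sp_aux hh h hr hH hQ hD p p' hne hm ζ hζ hζ'
    have h2 : min ((bxs s hh S E n r).lam p) ((bxs s hh S E n r).lam p') =
        1 / 2 ^ p'.1.2.1 := by
      apply min_eq_right
      apply one_div_le_one_div_of_le (by positivity)
      exact pow_le_pow_right₀ (by norm_num) hm
    rw [h2]
    exact h1
  · have h1 := sp_aux hh h hr hH hQ hD p' p (Ne.symm hne) hm ζ hζ' hζ
    have h2 : min ((bxs s hh S E n r).lam p) ((bxs s hh S E n r).lam p') =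
        1 / 2 ^ p.1.2.1 := by
      apply min_eq_left
      apply one_div_le_one_div_of_le (by positivity)
      exact pow_le_pow_right₀ (by norm_num) hm
    rw [h2]
    rw [abs_sub_comm] at h1
    exact h1

end

/-! ### levels -/

/-- the level of an occupancy: the smallest `a` with `H0 / 2 ^ a ≤ O` -/
def lv (H0 : ℝ) (O : ℝ≥0∞) : ℕ := sInf {a : ℕ | ENNReal.ofReal (H0 * (1 / 2) ^ a) ≤ O}

/-- the number of levels -/
def num (H0 : ℝ) : ℕ := ⌈Real.logb 2 H0⌉₊ + 1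

theorem num_le (hH : 1 < H0) : (num H0 : ℝ) ≤ 3 + 2 * Real.log H0 := by
  have h1 : 0 < Real.log H0 := Real.log_pos hH
  have h2 : Real.logb 2 H0 ≤ 2 * Real.log H0 := by
    rw [Real.logb, div_le_iff₀ (Real.log_pos (by norm_num))]
    have := Real.log_two_gt_d9
    nlinarith
  have h3 : (0:ℝ) ≤ Real.logb 2 H0 := Real.logb_nonneg (by norm_num) hH.le
  have h4 := Nat.ceil_lt_add_one h3
  unfold num
  push_cast
  linarith

theorem num_pow (hH : 1 < H0) : H0 * (1 / 2) ^ (num H0 - 1) ≤ 1 := by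
  have h1 : H0 ≤ 2 ^ (num H0 - 1) := by
    have h2 : num H0 - 1 = ⌈Real.logb 2 H0⌉₊ := by unfold num; omega
    rw [h2]
    have h3 := Nat.le_ceil (Real.logb 2 H0)
    rw [Real.logb_le_iff_le_rpow (by norm_num) (by linarith)] at h3
    rwa [Real.rpow_natCast] at h3
  rw [one_div, inv_pow, ← div_eq_mul_inv, div_le_one (by positivity)]
  exact h1

theorem lv_mem (hH : 1 < H0) {O : ℝ≥0∞} (hO : 1 ≤ O) :
    ENNReal.ofReal (H0 * (1 / 2) ^ lv H0 O) ≤ O := by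
  have hne : {a : ℕ | ENNReal.ofReal (H0 * (1 / 2) ^ a) ≤ O}.Nonempty := by
    refine ⟨num H0 - 1, ?_⟩
    rw [mem_ofPred_eq]
    refine le_trans ?_ hO
    rw [← ENNReal.ofReal_one]
    exact ENNReal.ofReal_le_ofReal (num_pow hH)
  exact Nat.sInf_mem hne

theorem lv_lt (hH : 1 < H0) {O : ℝ≥0∞} (hO : 1 ≤ O) : lv H0 O < num H0 := by
  have h1 : lv H0 O ≤ num H0 - 1 := by
    apply Nat.sInf_le
    rw [mem_ofPred_eq]
    refine le_trans ?_ hO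
    rw [← ENNReal.ofReal_one]
    exact ENNReal.ofReal_le_ofReal (num_pow hH)
  have h2 : 1 ≤ num H0 := by unfold num; omega
  omega

theorem le_lv {O : ℝ≥0∞} (h0 : lv H0 O ≠ 0) :
    O ≤ ENNReal.ofReal (2 * H0 * (1 / 2) ^ lv H0 O) := by
  obtain ⟨b, hb⟩ : ∃ b, lv H0 O = b + 1 := ⟨lv H0 O - 1, by omega⟩
  have h1 : b ∉ {a : ℕ | ENNReal.ofReal (H0 * (1 / 2) ^ a) ≤ O} := by
    apply Nat.notMem_of_lt_sInf
    have : lv H0 O = sInf {a : ℕ | ENNReal.ofReal (H0 * (1 / 2) ^ a) ≤ O} := rfl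
    omega
  rw [mem_ofPred_eq, not_le] at h1
  rw [hb, pow_succ]
  refine h1.le.trans (ENNReal.ofReal_le_ofReal (le_of_eq ?_))
  ring

end Vale.Agent.P112.H8.B0
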