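import Mathlib

/-!
# Covering lemma for antichains and trees (one scale per point)

`Grid` is a nested grid of the line.  `Grid.cover`: a set `U` of points, each with a level
`lev z`; if for every cell which contains a cell of a point of `U` the points of `U` over that cell
with level at most the level of the cell have measure at most `B` times the length of the cell,
then `U` has measure at most `2 B` times the length of the big cell.
-/

open MeasureTheory Set
open scoped ENNReal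

namespace Vale.Agent.P112.H8

/-- A nested grid of the line: `q i x` is the index of the cell of level `i` containing `x`. -/
structure Grid where
  q : ℕ → ℝ → ℤ
  meas : ∀ i, Measurable (q i)
  nest : ∀ i x x', q (i+1) x = q (i+1) x' → q i x = q i x'
  vol : ∀ i x, volume {x' | q i x' = q i x} = ENNReal.ofReal ((1/2)^i)

theorem Grid.nest' (G : Grid) {i i' : ℕ} (h : i ≤ i') {x x' : ℝ} (hx : G.q i' x = G.q i' x') :
    G.q i x = G.q i x' := by
  induction i', h using Nat.le_induction with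
  | base => exact hx
  | succ k hk ih => exact ih (G.nest k x x' hx)

theorem Grid.cover (G : Grid) {α : Type*} [MeasurableSpace α] (ν : Measure α) (X : α → ℝ)
    (lev : α → ℕ) (U : Set α) (n i0 : ℕ) (x0 : ℝ)
    (hU : ∀ z ∈ U, i0 ≤ lev z ∧ lev z < n ∧ G.q i0 (X z) = G.q i0 x0) (B : ℝ≥0∞)
    (hB : ∀ i, i0 ≤ i → ∀ z1 ∈ U, i ≤ lev z1 →
      ν {z | z ∈ U ∧ G.q i (X z) = G.q i (X z1) ∧ lev z ≤ i} ≤ B * ENNReal.ofReal ((1/2)^i)) :
    ν U ≤ 2 * B * ENNReal.ofReal ((1/2)^i0) := by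
  classical
  set P : ℕ → ℤ → Prop := fun i m => ∃ z1 ∈ U, i ≤ lev z1 ∧ G.q i (X z1) = m with hP
  set V : ℕ × ℤ → Set ℝ := fun p => {x | G.q p.1 x = p.2 ∧ P p.1 p.2 ∧
    ¬ P (p.1+1) (G.q (p.1+1) x)} with hV
  set Q : Set (ℕ × ℤ) := {p | i0 ≤ p.1 ∧ (V p).Nonempty} with hQ
  -- monotonicity of P along a branch
  have Pmono : ∀ i i' x, i ≤ i' → P i' (G.q i' x) → P i (G.q i x) := by
    rintro i i' x hii ⟨z1, hz1, hl, he⟩
    exact ⟨z1, hz1, hii.trans hl, G.nest' hii he⟩
  have Pn : ∀ i, n ≤ i → ∀ m, ¬ P i m := by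
    rintro i hi m ⟨z1, hz1, hl, -⟩
    have := (hU z1 hz1).2.1
    omega
  -- U is covered
  have hcov : U ⊆ ⋃ p ∈ Q, {z | z ∈ U ∧ G.q p.1 (X z) = p.2 ∧ lev z ≤ p.1} := by
    intro z hz
    obtain ⟨h0, hn, hc⟩ := hU z hz
    have hex : ∃ i, lev z ≤ i ∧ P i (G.q i (X z)) ∧ ¬ P (i+1) (G.q (i+1) (X z)) := by
      by_contra hcon
      push Not at hcon
      have : ∀ k, P (lev z + k) (G.q (lev z + k) (X z)) := by
        intro k
        induction k with
        | zero => exact ⟨z, hz, le_refl _, rfl⟩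
        | succ k ih => exact hcon _ (Nat.le_add_right _ _) ih
      exact Pn (lev z + n) (by omega) _ (this n)
    obtain ⟨i, hi, hPi, hPi1⟩ := hex
    refine mem_iUnion₂.2 ⟨(i, G.q i (X z)), ⟨h0.trans hi, ⟨X z, rfl, hPi, hPi1⟩⟩, hz, rfl, hi⟩
  -- the sets V are disjoint
  have hdisj : Q.PairwiseDisjoint V := by
    rintro ⟨i, m⟩ - ⟨i', m'⟩ - hne
    rw [Function.onFun, Set.disjoint_left]
    rintro x ⟨h1, h2, h3⟩ ⟨h1', h2', h3'⟩
    simp only at h1 h2 h3 h1' h2' h3'
    rcases lt_trichotomy i i' with hlt | heq | hgt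
    · apply h3
      apply Pmono (i+1) i' x hlt
      rw [h1']; exact h2'
    · subst heq
      apply hne
      rw [← h1, ← h1']
    · apply h3'
      apply Pmono (i'+1) i x hgt
      rw [h1]; exact h2
  have hmeas : ∀ p, MeasurableSet (V p) := by
    rintro ⟨i, m⟩
    have e : V (i, m) = (G.q i ⁻¹' {m}) ∩ {x | P i m} ∩ (G.q (i+1) ⁻¹' {k | ¬ P (i+1) k}) := by
      ext x; simp [hV, and_assoc]
    rw [e]
    refine ((G.meas i (measurableSet_singleton m)).inter ?_).inter
      (G.meas (i+1) (MeasurableSpace.measurableSet_top (s := {k | ¬ P (i+1) k})))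
    by_cases h : P i m <;> simp [h]
  have hvol : ∀ p ∈ Q, ENNReal.ofReal ((1/2)^(p.1)) ≤ 2 * volume (V p) := by
    rintro ⟨i, m⟩ ⟨-, x, h1, h2, h3⟩
    simp only at h1 h2 h3
    have hsub : {x' | G.q (i+1) x' = G.q (i+1) x} ⊆ V (i, m) := by
      intro x' hx'
      refine ⟨?_, h2, ?_⟩
      · simp only; rw [← h1]; exact G.nest i _ _ hx'
      · simp only; rw [hx']; exact h3
    have := measure_mono (μ := volume) hsub
    rw [G.vol] at this
    calc ENNReal.ofReal ((1/2)^i) = 2 * ENNReal.ofReal ((1/2)^(i+1)) := by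
          rw [show (2:ℝ≥0∞) = ENNReal.ofReal 2 by simp, ← ENNReal.ofReal_mul (by norm_num)]
          congr 1; ring
      _ ≤ 2 * volume (V (i, m)) := by gcongr
  have hin : ⋃ p ∈ Q, V p ⊆ {x' | G.q i0 x' = G.q i0 x0} := by
    intro x hx
    obtain ⟨p, hp, hxp⟩ := mem_iUnion₂.1 hx
    obtain ⟨h1, ⟨z1, hz1, hl, he⟩, -⟩ := hxp
    have : G.q i0 x = G.q i0 (X z1) := G.nest' hp.1 (h1.trans he.symm)
    exact this.trans (hU z1 hz1).2.2
  have hQc : Q.Countable := to_countable Q
  calc ν U ≤ ν (⋃ p ∈ Q, {z | z ∈ U ∧ G.q p.1 (X z) = p.2 ∧ lev z ≤ p.1}) := measure_mono hcov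
    _ ≤ ∑' p : Q, ν {z | z ∈ U ∧ G.q p.1.1 (X z) = p.1.2 ∧ lev z ≤ p.1.1} :=
        measure_biUnion_le ν hQc _
    _ ≤ ∑' p : Q, B * (2 * volume (V p.1)) := by
        refine ENNReal.tsum_le_tsum fun p => ?_
        obtain ⟨⟨i, m⟩, hp⟩ := p
        have hp' := hp
        obtain ⟨hi0, x, h1, ⟨z1, hz1, hl, he⟩, h3⟩ := hp
        simp only at h1 hl he h3 hi0
        have hb := hB i hi0 z1 hz1 hl
        rw [he] at hb
        refine hb.trans ?_
        gcongr
        exact hvol _ hp'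
    _ = 2 * B * ∑' p : Q, volume (V p.1) := by
        rw [← ENNReal.tsum_mul_left]
        congr 1; ext p; ring
    _ = 2 * B * volume (⋃ p ∈ Q, V p) := by
        rw [measure_biUnion hQc hdisj (fun p _ => hmeas p)]
    _ ≤ 2 * B * ENNReal.ofReal ((1/2)^i0) := by
        gcongr
        refine (measure_mono hin).trans ?_
        rw [G.vol]

end Vale.Agent.P112.H8
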