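import Vale.Agent.P112.H8.Pair

/-!
# Pair sum for antichains, frequency `N`: Schur row sum of the TT* kernel from the density
-/

open MeasureTheory Set
open scoped ENNReal

namespace Vale.Agent.P112.H8

/-- The density condition (sup over all lam-tiles above lam p, free slope, free line). -/
def DensG (N : ℝ) (G : Grid) (u : ℝ × ℝ → ℝ) (ν : Measure (ℝ × ℝ)) (S : Set (ℝ × ℝ)) (lev : ℝ × ℝ → ℕ)
    (a : ℕ) (δ : ℝ) : Prop :=
  ∀ z1 ∈ S, ∀ lam : ℝ, 1 ≤ lam → ∀ th c : ℝ, |th - u z1| ≤ lam * 2 ^ (lev z1) / N →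
    |z1.2 - c - th * z1.1| ≤ lam → ∀ i ≤ lev z1,
    ν {z | z ∈ S ∧ G.q i z.1 = G.q i z1.1 ∧ |z.2 - c - th * z.1| ≤ lam ∧
      |u z - th| ≤ lam * 2 ^ i / N} ≤ ENNReal.ofReal (lam ^ a * δ * (1/2) ^ i)

theorem class_boundN (N : ℝ) (hN : 1 ≤ N) (G : Grid) (u : ℝ × ℝ → ℝ) (ν : Measure (ℝ × ℝ)) (S : Set (ℝ × ℝ))
    (lev : ℝ × ℝ → ℕ) (n a : ℕ) (δ : ℝ) (hδ : 0 ≤ δ) (hn : ∀ z ∈ S, lev z < n)
    (hD : DensG N G u ν S lev a δ) (z' : ℝ × ℝ) (x0 : ℝ) (lam : ℝ) (hlam : 1 ≤ lam) :
    ν {z | z ∈ S ∧ lev z' ≤ lev z ∧ G.q (lev z') z.1 = G.q (lev z') x0 ∧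
      |off u z' z| ≤ lam ∧ |u z - u z'| ≤ lam * 2 ^ (lev z) / N} ≤
      ENNReal.ofReal (2 * (lam ^ a * δ) * (1/2) ^ (lev z')) := by
  have h := G.cover ν (fun z => z.1) lev {z | z ∈ S ∧ lev z' ≤ lev z ∧
      G.q (lev z') z.1 = G.q (lev z') x0 ∧
      |off u z' z| ≤ lam ∧ |u z - u z'| ≤ lam * 2 ^ (lev z) / N} n (lev z') x0
      (fun z hz => ⟨hz.2.1, hn z hz.1, hz.2.2.1⟩) (ENNReal.ofReal (lam ^ a * δ)) ?_
  · refine h.trans (le_of_eq ?_)
    rw [show (2:ℝ≥0∞) = ENNReal.ofReal 2 by simp, ← ENNReal.ofReal_mul (by norm_num),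
      ← ENNReal.ofReal_mul (by positivity)]
  · rintro i hi z1 ⟨hz1, hl1, hq1, ho1, hu1⟩ hil
    have hoff : ∀ z : ℝ × ℝ, z.2 - (z'.2 - u z' * z'.1) - u z' * z.1 = off u z' z := by
      intro z; unfold off; ring
    have := hD z1 hz1 lam hlam (u z') (z'.2 - u z' * z'.1)
      (by rw [abs_sub_comm]; exact hu1) (by rw [hoff]; exact ho1) i hil
    rw [ENNReal.ofReal_mul (by positivity)] at this
    refine (measure_mono ?_).trans this
    rintro z ⟨⟨hz, hl, hq, ho, hu⟩, hqi, hli⟩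
    refine ⟨hz, hqi, by rw [hoff]; exact ho, hu.trans ?_⟩
    have : (2:ℝ) ^ (lev z) ≤ 2 ^ i := pow_le_pow_right₀ (by norm_num) hli
    gcongr

/-- Row sum. -/
theorem pair_sumN (N : ℝ) (hN : 1 ≤ N) (G : Grid) (u : ℝ × ℝ → ℝ) (hu : Measurable u) (ν : Measure (ℝ × ℝ))
    (S : Set (ℝ × ℝ)) (hS : MeasurableSet S)
    (lev : ℝ × ℝ → ℕ) (hlev : Measurable lev) (n a M : ℕ) (hM : a + 1 ≤ M) (δ : ℝ) (hδ : 0 ≤ δ)
    (hn : ∀ z ∈ S, lev z < n)
    (hD : DensG N G u ν S lev a δ) (z' : ℝ × ℝ) (x0 : ℝ) :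
    ∫⁻ z in {z | z ∈ S ∧ lev z' ≤ lev z ∧ G.q (lev z') z.1 = G.q (lev z') x0 ∧
      |off u z' z| ≤ 2 + |u z - u z'| / 2 ^ (lev z)},
      ENNReal.ofReal (((1 + N * |u z - u z'| / 2 ^ (lev z)) ^ M)⁻¹) ∂ν ≤
      ENNReal.ofReal (4 ^ (a+2) * δ * (1/2) ^ (lev z')) := by
  classical
  set A := {z : ℝ × ℝ | z ∈ S ∧ lev z' ≤ lev z ∧ G.q (lev z') z.1 = G.q (lev z') x0 ∧
      |off u z' z| ≤ 2 + |u z - u z'| / 2 ^ (lev z)} with hA
  set U : ℕ → Set (ℝ × ℝ) := fun k => {z | z ∈ S ∧ lev z' ≤ lev z ∧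
      G.q (lev z') z.1 = G.q (lev z') x0 ∧
      |off u z' z| ≤ 2^(k+2) ∧ |u z - u z'| ≤ 2^(k+2) * 2 ^ (lev z) / N} with hU
  have hmU : ∀ k, MeasurableSet (U k) := by
    intro k
    have h1 : MeasurableSet {z : ℝ × ℝ | lev z' ≤ lev z} :=
      hlev (measurableSet_Ici (a := lev z'))
    have h2 : MeasurableSet {z : ℝ × ℝ | G.q (lev z') z.1 = G.q (lev z') x0} :=
      ((G.meas _).comp measurable_fst) (measurableSet_singleton _)
    have hoff : Measurable (fun z => off u z' z) := by unfold off; fun_prop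
    have h3 : MeasurableSet {z : ℝ × ℝ | |off u z' z| ≤ 2^(k+2)} :=
      measurableSet_le (by fun_prop) measurable_const
    have hp : Measurable (fun z : ℝ × ℝ => (2:ℝ) ^ (lev z)) :=
      (measurable_of_countable (fun m : ℕ => (2:ℝ)^m)).comp hlev
    have h4 : MeasurableSet {z : ℝ × ℝ | |u z - u z'| ≤ 2^(k+2) * 2 ^ (lev z) / N} :=
      measurableSet_le (by fun_prop) (by fun_prop)
    exact hS.inter (h1.inter (h2.inter (h3.inter h4)))
  have hoff : Measurable (fun z => off u z' z) := by unfold off; fun_prop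
  have hp : Measurable (fun z : ℝ × ℝ => (2:ℝ) ^ (lev z)) :=
    (measurable_of_countable (fun m : ℕ => (2:ℝ)^m)).comp hlev
  have hmA : MeasurableSet A := by
    have h1 : MeasurableSet {z : ℝ × ℝ | lev z' ≤ lev z} :=
      hlev (measurableSet_Ici (a := lev z'))
    have h2 : MeasurableSet {z : ℝ × ℝ | G.q (lev z') z.1 = G.q (lev z') x0} :=
      ((G.meas _).comp measurable_fst) (measurableSet_singleton _)
    have h3 : MeasurableSet {z : ℝ × ℝ | |off u z' z| ≤ 2 + |u z - u z'| / 2 ^ (lev z)} :=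
      measurableSet_le (by fun_prop) (by fun_prop)
    exact hS.inter (h1.inter (h2.inter h3))
  calc ∫⁻ z in A, ENNReal.ofReal (((1 + N * |u z - u z'| / 2 ^ (lev z)) ^ M)⁻¹) ∂ν
      ≤ ∫⁻ z, ∑' k : ℕ, (U k).indicator (fun _ => ENNReal.ofReal (((2:ℝ)^(k*M))⁻¹)) z ∂ν := by
        rw [← lintegral_indicator hmA]
        refine lintegral_mono fun z => ?_
        simp only
        by_cases hz : z ∈ A
        · rw [indicator_of_mem hz]
          obtain ⟨h1, h2, h3, h4⟩ := hz
          set t := 1 + N * |u z - u z'| / 2 ^ (lev z) with ht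
          have ht1 : 1 ≤ t := by
            rw [ht]; have : 0 ≤ N * |u z - u z'| / 2 ^ (lev z) := by positivity
            linarith
          obtain ⟨k, hk1, hk2⟩ := exists_nat_pow_near ht1 (by norm_num : (1:ℝ) < 2)
          have hzU : z ∈ U k := by
            refine ⟨h1, h2, h3, ?_, ?_⟩
            · refine h4.trans ?_
              have : (2:ℝ)^(k+2) = 2 * 2^(k+1) := by ring
              rw [this]
              have : 2 + |u z - u z'| / 2 ^ (lev z) ≤ 1 + t := by
                rw [ht]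
                have : |u z - u z'| / 2 ^ (lev z) ≤ N * |u z - u z'| / 2 ^ (lev z) := by
                  gcongr
                  exact le_mul_of_one_le_left (abs_nonneg _) hN
                linarith
              linarith
            · have h5 : N * |u z - u z'| / 2 ^ (lev z) ≤ 2^(k+2) := by
                have : N * |u z - u z'| / 2 ^ (lev z) = t - 1 := by rw [ht]; ring
                rw [this]
                have : (2:ℝ)^(k+2) = 2 * 2^(k+1) := by ring
                rw [this]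
                have : (0:ℝ) < 2^(k+1) := by positivity
                linarith
              rw [div_le_iff₀ (by positivity)] at h5
              rw [le_div_iff₀ (by positivity)]
              linarith
          refine le_trans ?_ (ENNReal.le_tsum k)
          rw [indicator_of_mem hzU]
          apply ENNReal.ofReal_le_ofReal
          apply inv_anti₀ (by positivity)
          rw [pow_mul]
          gcongr
        · rw [indicator_of_notMem hz]; exact zero_le
    _ = ∑' k : ℕ, ∫⁻ z, (U k).indicator (fun _ => ENNReal.ofReal (((2:ℝ)^(k*M))⁻¹)) z ∂ν := by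
        rw [lintegral_tsum]
        exact fun k => (measurable_const.indicator (hmU k)).aemeasurable
    _ = ∑' k : ℕ, ENNReal.ofReal (((2:ℝ)^(k*M))⁻¹) * ν (U k) := by
        congr 1; ext k
        rw [lintegral_indicator (hmU k), lintegral_const, Measure.restrict_apply_univ]
    _ ≤ ∑' k : ℕ, ENNReal.ofReal (2 * 4^a * δ * (1/2)^(lev z') * (1/2)^k) := by
        refine ENNReal.tsum_le_tsum fun k => ?_
        have hb := class_boundN N hN G u ν S lev n a δ hδ hn hD z' x0 (2^(k+2))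
          (one_le_pow₀ (by norm_num))
        calc ENNReal.ofReal (((2:ℝ)^(k*M))⁻¹) * ν (U k)
            ≤ ENNReal.ofReal (((2:ℝ)^(k*M))⁻¹) *
              ENNReal.ofReal (2 * ((2^(k+2)) ^ a * δ) * (1/2) ^ (lev z')) := by gcongr
          _ = ENNReal.ofReal (((2:ℝ)^(k*M))⁻¹ * (2 * ((2^(k+2)) ^ a * δ) * (1/2) ^ (lev z'))) := by
              rw [← ENNReal.ofReal_mul (by positivity)]
          _ ≤ _ := by
              apply ENNReal.ofReal_le_ofReal
              have e1 : ((2:ℝ)^(k+2))^a = 4^a * 2^(k*a) := by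
                rw [pow_add, mul_pow, ← pow_mul]; norm_num; ring
              have e2 : ((2:ℝ)^(k*M))⁻¹ * 2^(k*a) ≤ (1/2)^k := by
                have h3 : (2:ℝ)^(k*a) * 2^k ≤ 2^(k*M) := by
                  rw [← pow_add]
                  apply pow_le_pow_right₀ (by norm_num)
                  nlinarith
                rw [one_div, inv_pow, inv_mul_le_iff₀ (by positivity)]
                rw [← div_eq_mul_inv, le_div_iff₀ (by positivity)]
                exact h3
              calc ((2:ℝ)^(k*M))⁻¹ * (2 * ((2^(k+2)) ^ a * δ) * (1/2) ^ (lev z'))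
                  = (2 * 4^a * δ * (1/2) ^ (lev z')) * (((2:ℝ)^(k*M))⁻¹ * 2^(k*a)) := by
                    rw [e1]; ring
                _ ≤ (2 * 4^a * δ * (1/2) ^ (lev z')) * (1/2)^k := by gcongr
    _ = ENNReal.ofReal (∑' k : ℕ, (2 * 4^a * δ * (1/2)^(lev z') * (1/2)^k)) := by
        rw [ENNReal.ofReal_tsum_of_nonneg]
        · intro k; positivity
        · exact (summable_geometric_of_lt_one (by norm_num) (by norm_num)).mul_left _
    _ ≤ _ := by
        rw [tsum_mul_left, tsum_geometric_of_lt_one (by norm_num) (by norm_num)]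
        apply ENNReal.ofReal_le_ofReal
        have h4 : (4:ℝ)^(a+2) = 16 * 4^a := by ring
        rw [h4]
        have : 0 ≤ (4:ℝ)^a * δ * (1/2)^(lev z') := by positivity
        nlinarith

end Vale.Agent.P112.H8
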