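import Mathlib

/-!
# Exact Parseval on windows, and the increments of the windowed coefficients

`cf H b f v = (1/H) ∫_v^{v+H} e^{-i 2π b t / H} f t dt`.
-/

open MeasureTheory Set
open scoped ENNReal

noncomputable section

namespace Vale.Agent.P112.H8

/-- the `b`-th windowed coefficient of `f` on `[v, v + H]` -/
def cf (H : ℝ) (b : ℤ) (f : ℝ → ℂ) (v : ℝ) : ℂ :=
  ((1 / H : ℝ) : ℂ) * ∫ t in v..v + H,
    Complex.exp (-(Complex.I * ((2 * Real.pi * b / H * t : ℝ) : ℂ))) * f t

theorem cf_eq {H : ℝ} (hH : 0 < H) (b : ℤ) (f : ℝ → ℂ) (v : ℝ) :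
    cf H b f v = fourierCoeffOn (lt_add_of_pos_right v hH) f b := by
  rw [fourierCoeffOn_eq_integral, cf, Complex.real_smul, add_sub_cancel_left]
  congr 1
  apply intervalIntegral.integral_congr
  intro t _
  simp only [smul_eq_mul]
  congr 1
  rw [fourier_coe_apply]
  congr 1
  push_cast
  have : (H : ℂ) ≠ 0 := by exact_mod_cast hH.ne'
  field_simp

theorem parseval {H : ℝ} (hH : 0 < H) {f : ℝ → ℂ} {v : ℝ}
    (hf : MemLp f 2 (volume.restrict (Ioc v (v + H)))) :
    ∑' b : ℤ, ‖cf H b f v‖ₑ ^ 2 = ENNReal.ofReal (1 / H) * ∫⁻ t in Ioc v (v + H), ‖f t‖ₑ ^ 2 := by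
  have h := hasSum_sq_fourierCoeffOn (lt_add_of_pos_right v hH) hf
  have h1 : ∀ b : ℤ, ‖cf H b f v‖ₑ ^ 2
      = ENNReal.ofReal (‖fourierCoeffOn (lt_add_of_pos_right v hH) f b‖ ^ 2) := by
    intro b
    rw [cf_eq hH, ENNReal.ofReal_pow (norm_nonneg _), ofReal_norm]
  simp_rw [h1]
  rw [← ENNReal.ofReal_tsum_of_nonneg (fun b => sq_nonneg _) h.summable, h.tsum_eq]
  rw [add_sub_cancel_left, smul_eq_mul, ENNReal.ofReal_mul (by positivity), one_div]
  congr 1
  rw [intervalIntegral.integral_of_le (by linarith), integral_eq_lintegral_of_nonneg_ae]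
  · rw [ENNReal.ofReal_toReal]
    · apply lintegral_congr
      intro t
      rw [ENNReal.ofReal_pow (norm_nonneg _), ofReal_norm]
    · have h3 : Integrable (fun x => ‖f x‖ ^ 2) (volume.restrict (Ioc v (v + H))) :=
        hf.integrable_norm_pow (p := 2) (by norm_num)
      exact h3.lintegral_lt_top.ne
  · exact Filter.Eventually.of_forall fun t => sq_nonneg _
  · exact (hf.1.norm.pow 2)

theorem sq_sub_le (a b : ℂ) : ‖a - b‖ₑ ^ 2 ≤ 2 * ‖a‖ₑ ^ 2 + 2 * ‖b‖ₑ ^ 2 := by
  have h : ‖a - b‖ ^ 2 ≤ 2 * ‖a‖ ^ 2 + 2 * ‖b‖ ^ 2 := by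
    have := norm_sub_le a b
    nlinarith [norm_nonneg (a - b), norm_nonneg a, norm_nonneg b, sq_nonneg (‖a‖ - ‖b‖)]
  calc ‖a - b‖ₑ ^ 2 = ENNReal.ofReal (‖a - b‖ ^ 2) := by
        rw [ENNReal.ofReal_pow (norm_nonneg _), ofReal_norm]
    _ ≤ ENNReal.ofReal (2 * ‖a‖ ^ 2 + 2 * ‖b‖ ^ 2) := ENNReal.ofReal_le_ofReal h
    _ = 2 * ‖a‖ₑ ^ 2 + 2 * ‖b‖ₑ ^ 2 := by
        rw [ENNReal.ofReal_add (by positivity) (by positivity), ENNReal.ofReal_mul (by norm_num),
          ENNReal.ofReal_mul (by norm_num), ENNReal.ofReal_pow (norm_nonneg _),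
          ENNReal.ofReal_pow (norm_nonneg _), ofReal_norm, ofReal_norm]
        norm_num

theorem sq_add_le (a b : ℂ) : ‖a + b‖ₑ ^ 2 ≤ 2 * ‖a‖ₑ ^ 2 + 2 * ‖b‖ₑ ^ 2 := by
  have := sq_sub_le a (-b)
  simpa using this

theorem cf_sub {H : ℝ} (b : ℤ) {f g : ℝ → ℂ} {v : ℝ} (hf : LocallyIntegrable f)
    (hg : LocallyIntegrable g) : cf H b (fun t => f t - g t) v = cf H b f v - cf H b g v := by
  have hc : ∀ (f : ℝ → ℂ), LocallyIntegrable f → IntervalIntegrable (fun t : ℝ =>
      Complex.exp (-(Complex.I * ((2 * Real.pi * b / H * t : ℝ) : ℂ))) * f t) volume v (v + H) := by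
    intro f hf
    apply IntervalIntegrable.continuousOn_mul
    · exact (hf.integrableOn_isCompact isCompact_uIcc).intervalIntegrable
    · fun_prop
  rw [cf, cf, cf, ← mul_sub, ← intervalIntegral.integral_sub (hc f hf) (hc g hg)]
  congr 1
  apply intervalIntegral.integral_congr
  intro t _
  simp only
  ring

/-- vertical increments. -/
theorem cf_incr {H : ℝ} (hH : 0 < H) {f : ℝ → ℂ} (hf : MemLp f 2 volume) {v v' : ℝ} (hv : v ≤ v')
    (hv' : v' ≤ v + H) :
    ∑' b : ℤ, ‖cf H b f v' - cf H b f v‖ₑ ^ 2 ≤ ENNReal.ofReal (2 / H) *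
      ((∫⁻ t in Ioc v v', ‖f t‖ₑ ^ 2) + ∫⁻ t in Ioc (v + H) (v' + H), ‖f t‖ₑ ^ 2) := by
  have hloc : LocallyIntegrable f := hf.locallyIntegrable (by norm_num)
  set f1 : ℝ → ℂ := (Ioc (v + H) (v' + H)).indicator f with hf1
  set f2 : ℝ → ℂ := (Ioc v v').indicator f with hf2
  have hm1 : MemLp f1 2 volume := hf.indicator measurableSet_Ioc
  have hm2 : MemLp f2 2 volume := hf.indicator measurableSet_Ioc
  have key : ∀ b : ℤ, cf H b f v' - cf H b f v = cf H b f1 v' - cf H b f2 v := by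
    intro b
    have hi : ∀ a c : ℝ, IntervalIntegrable (fun t : ℝ =>
        Complex.exp (-(Complex.I * ((2 * Real.pi * b / H * t : ℝ) : ℂ))) * f t) volume a c := by
      intro a c
      apply IntervalIntegrable.continuousOn_mul
      · exact (hloc.integrableOn_isCompact isCompact_uIcc).intervalIntegrable
      · fun_prop
    have e1 : ∫ t in v'..v' + H, Complex.exp (-(Complex.I * ((2 * Real.pi * b / H * t : ℝ) : ℂ)))
        * f1 t = ∫ t in v + H..v' + H,
          Complex.exp (-(Complex.I * ((2 * Real.pi * b / H * t : ℝ) : ℂ))) * f t := by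
      rw [intervalIntegral.integral_of_le (by linarith), intervalIntegral.integral_of_le (by linarith)]
      have : (fun t : ℝ => Complex.exp (-(Complex.I * ((2 * Real.pi * b / H * t : ℝ) : ℂ))) * f1 t)
          = (Ioc (v + H) (v' + H)).indicator (fun t : ℝ =>
            Complex.exp (-(Complex.I * ((2 * Real.pi * b / H * t : ℝ) : ℂ))) * f t) := by
        funext t
        by_cases ht : t ∈ Ioc (v + H) (v' + H)
        · simp [hf1, ht]
        · simp [hf1, ht]
      rw [this, setIntegral_indicator measurableSet_Ioc]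
      congr 2
      ext t
      simp only [mem_inter_iff, mem_Ioc]
      constructor
      · rintro ⟨_, h⟩; exact h
      · rintro ⟨h1, h2⟩
        exact ⟨⟨by linarith, h2⟩, h1, h2⟩
    have e2 : ∫ t in v..v + H, Complex.exp (-(Complex.I * ((2 * Real.pi * b / H * t : ℝ) : ℂ)))
        * f2 t = ∫ t in v..v',
          Complex.exp (-(Complex.I * ((2 * Real.pi * b / H * t : ℝ) : ℂ))) * f t := by
      rw [intervalIntegral.integral_of_le (by linarith), intervalIntegral.integral_of_le (by linarith)]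
      have : (fun t : ℝ => Complex.exp (-(Complex.I * ((2 * Real.pi * b / H * t : ℝ) : ℂ))) * f2 t)
          = (Ioc v v').indicator (fun t : ℝ =>
            Complex.exp (-(Complex.I * ((2 * Real.pi * b / H * t : ℝ) : ℂ))) * f t) := by
        funext t
        by_cases ht : t ∈ Ioc v v'
        · simp [hf2, ht]
        · simp [hf2, ht]
      rw [this, setIntegral_indicator measurableSet_Ioc]
      congr 2
      ext t
      simp only [mem_inter_iff, mem_Ioc]
      constructor
      · rintro ⟨_, h⟩; exact h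
      · rintro ⟨h1, h2⟩
        exact ⟨⟨h1, by linarith⟩, h1, h2⟩
    rw [cf, cf, cf, cf, e1, e2, ← mul_sub, ← mul_sub]
    congr 1
    have a1 := intervalIntegral.integral_add_adjacent_intervals (hi v v') (hi v' (v' + H))
    have a2 := intervalIntegral.integral_add_adjacent_intervals (hi v (v + H)) (hi (v + H) (v' + H))
    rw [← a2] at a1
    linear_combination a1
  calc ∑' b : ℤ, ‖cf H b f v' - cf H b f v‖ₑ ^ 2
      ≤ ∑' b : ℤ, (2 * ‖cf H b f1 v'‖ₑ ^ 2 + 2 * ‖cf H b f2 v‖ₑ ^ 2) := by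
        apply ENNReal.tsum_le_tsum
        intro b
        rw [key]
        exact sq_sub_le _ _
    _ = 2 * (ENNReal.ofReal (1 / H) * ∫⁻ t in Ioc v' (v' + H), ‖f1 t‖ₑ ^ 2) +
        2 * (ENNReal.ofReal (1 / H) * ∫⁻ t in Ioc v (v + H), ‖f2 t‖ₑ ^ 2) := by
        rw [ENNReal.tsum_add, ENNReal.tsum_mul_left, ENNReal.tsum_mul_left,
          parseval hH (hm1.restrict _), parseval hH (hm2.restrict _)]
    _ ≤ 2 * (ENNReal.ofReal (1 / H) * ∫⁻ t in Ioc (v + H) (v' + H), ‖f t‖ₑ ^ 2) +
        2 * (ENNReal.ofReal (1 / H) * ∫⁻ t in Ioc v v', ‖f t‖ₑ ^ 2) := by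
        refine add_le_add (mul_le_mul_right ?_ _ |> fun h => mul_le_mul_right h _)
          (mul_le_mul_right ?_ _ |> fun h => mul_le_mul_right h _)
        · calc ∫⁻ t in Ioc v' (v' + H), ‖f1 t‖ₑ ^ 2 ≤ ∫⁻ t, ‖f1 t‖ₑ ^ 2 := setLIntegral_le_lintegral _ _
            _ = ∫⁻ t, (Ioc (v + H) (v' + H)).indicator (fun t => ‖f t‖ₑ ^ 2) t := by
                apply lintegral_congr
                intro t
                by_cases ht : t ∈ Ioc (v + H) (v' + H)
                · simp [hf1, ht]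
                · simp [hf1, ht]
            _ = _ := by rw [lintegral_indicator measurableSet_Ioc]
        · calc ∫⁻ t in Ioc v (v + H), ‖f2 t‖ₑ ^ 2 ≤ ∫⁻ t, ‖f2 t‖ₑ ^ 2 := setLIntegral_le_lintegral _ _
            _ = ∫⁻ t, (Ioc v v').indicator (fun t => ‖f t‖ₑ ^ 2) t := by
                apply lintegral_congr
                intro t
                by_cases ht : t ∈ Ioc v v'
                · simp [hf2, ht]
                · simp [hf2, ht]
            _ = _ := by rw [lintegral_indicator measurableSet_Ioc]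
    _ = _ := by
        rw [show (2 / H : ℝ) = 2 * (1 / H) by ring, ENNReal.ofReal_mul (by norm_num)]
        norm_num
        ring

end Vale.Agent.P112.H8
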