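import Vale.Agent.P112.H8.Par
import Vale.Agent.P112.H371.Win

/-!
# Increments of the windowed coefficients `Gb H b G` (helper371), variance bound
-/

open MeasureTheory Set
open scoped ENNReal

noncomputable section

namespace Vale.Agent.P112.H8

open Vale.Agent.P112.H371

theorem Gb_cf (H : ℝ) (b : ℤ) (G : ℝ × ℝ → ℂ) (z : ℝ × ℝ) :
    Gb H b G z = cf H b (fun t => G (z.1, t)) z.2 := rfl

theorem cf_congr {H : ℝ} (hH : 0 < H) (b : ℤ) {f g : ℝ → ℂ} {v : ℝ}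
    (h : ∀ t ∈ Ioc v (v + H), f t = g t) : cf H b f v = cf H b g v := by
  rw [cf, cf]
  congr 1
  rw [intervalIntegral.integral_of_le (by linarith), intervalIntegral.integral_of_le (by linarith)]
  apply setIntegral_congr_fun measurableSet_Ioc
  intro t ht
  simp only
  rw [h t ht]

theorem Gb_bdd {H : ℝ} (hH : 0 < H) (b : ℤ) {g : ℝ × ℝ → ℂ} {C : ℝ} (hC : ∀ z, ‖g z‖ ≤ C)
    (z : ℝ × ℝ) : ‖Gb H b g z‖ ≤ C := by
  rw [Gb, norm_mul]
  have h1 := intervalIntegral.norm_integral_le_of_norm_le_const (a := z.2) (b := z.2 + H) (C := C)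
    (f := fun t : ℝ => Complex.exp (-(Complex.I * ((eb H b * t : ℝ) : ℂ)))
      * g (z.1, t)) (by
      intro t _
      rw [norm_mul]
      have : ‖Complex.exp (-(Complex.I * ((eb H b * t : ℝ) : ℂ)))‖ = 1 := by
        rw [show -(Complex.I * ((eb H b * t : ℝ) : ℂ))
          = ((-(eb H b * t) : ℝ) : ℂ) * Complex.I by push_cast; ring]
        exact Complex.norm_exp_ofReal_mul_I _
      rw [this, one_mul]
      exact hC _)
  have h2 : ‖((1 / H : ℝ) : ℂ)‖ = 1 / H := by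
    rw [Complex.norm_real, Real.norm_eq_abs, abs_of_pos (by positivity)]
  rw [h2]
  calc 1 / H * _ ≤ 1 / H * (C * |z.2 + H - z.2|) := by gcongr
    _ = C := by
        rw [add_sub_cancel_left, abs_of_pos hH]
        field_simp

theorem memLp_ind {f : ℝ → ℂ} (hf : Measurable f) {C : ℝ} (hC : ∀ t, ‖f t‖ ≤ C) (a b : ℝ) :
    MemLp ((Ioc a b).indicator f) 2 volume := by
  rw [memLp_indicator_iff_restrict measurableSet_Ioc]
  exact MemLp.of_bound hf.aestronglyMeasurable C (Filter.Eventually.of_forall hC)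

/-- vertical increments -/
theorem Gb_vert {H : ℝ} (hH : 0 < H) {G : ℝ × ℝ → ℂ} (hG : Measurable G) {C : ℝ}
    (hb : ∀ z, ‖G z‖ ≤ C) (x : ℝ) {v v' : ℝ} (hv : v ≤ v') (hv' : v' ≤ v + H) :
    ∑' b : ℤ, ‖Gb H b G (x, v') - Gb H b G (x, v)‖ₑ ^ 2 ≤ ENNReal.ofReal (2 / H) *
      ((∫⁻ t in Ioc v v', ‖G (x, t)‖ₑ ^ 2) + ∫⁻ t in Ioc (v + H) (v' + H), ‖G (x, t)‖ₑ ^ 2) := by
  have h := cf_incr hH (memLp_ind (f := fun t => G (x, t)) (hG.comp (by fun_prop))
    (fun t => hb _) v (v' + H)) hv hv'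
  have e1 : ∀ b : ℤ, cf H b ((Ioc v (v' + H)).indicator fun t => G (x, t)) v'
      = Gb H b G (x, v') := by
    intro b
    rw [Gb_cf]
    apply cf_congr hH
    intro t ht
    simp only
    rw [indicator_of_mem]
    exact ⟨by linarith [ht.1], ht.2⟩
  have e2 : ∀ b : ℤ, cf H b ((Ioc v (v' + H)).indicator fun t => G (x, t)) v
      = Gb H b G (x, v) := by
    intro b
    rw [Gb_cf]
    apply cf_congr hH
    intro t ht
    simp only
    rw [indicator_of_mem]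
    exact ⟨ht.1, by linarith [ht.2]⟩
  simp_rw [e1, e2] at h
  refine h.trans (mul_le_mul_right (add_le_add ?_ ?_) _)
  · apply le_of_eq
    apply setLIntegral_congr_fun measurableSet_Ioc
    intro t ht
    simp only
    rw [indicator_of_mem]
    exact ⟨ht.1, by linarith [ht.2]⟩
  · apply le_of_eq
    apply setLIntegral_congr_fun measurableSet_Ioc
    intro t ht
    simp only
    rw [indicator_of_mem]
    exact ⟨by linarith [ht.1], ht.2⟩

/-- vertical increments inside one box -/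
theorem Gb_vert_box {H : ℝ} (hH : 0 < H) {G : ℝ × ℝ → ℂ} (hG : Measurable G) {C : ℝ}
    (hb : ∀ z, ‖G z‖ ≤ C) (x : ℝ) {y0 h v v' : ℝ} (hh : h ≤ H) (hv : v ∈ Ico y0 (y0 + h))
    (hv' : v' ∈ Ico y0 (y0 + h)) :
    ∑' b : ℤ, ‖Gb H b G (x, v) - Gb H b G (x, v')‖ₑ ^ 2 ≤ ENNReal.ofReal (2 / H) *
      ((∫⁻ t in Ico y0 (y0 + h), ‖G (x, t)‖ₑ ^ 2) +
        ∫⁻ t in Ico (y0 + H) (y0 + H + h), ‖G (x, t)‖ₑ ^ 2) := by
  wlog hle : v' ≤ v generalizing v v'
  · have := this hv' hv (le_of_not_ge hle)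
    refine le_trans (le_of_eq ?_) this
    congr 1
    funext b
    rw [← enorm_neg, neg_sub]
  refine (Gb_vert hH hG hb x hle (by linarith [hv.2, hv'.1])).trans ?_
  refine mul_le_mul_right (add_le_add ?_ ?_) _
  · apply lintegral_mono_set
    intro t ht
    exact ⟨by linarith [ht.1, hv'.1], by linarith [ht.2, hv.2]⟩
  · apply lintegral_mono_set
    intro t ht
    exact ⟨by linarith [ht.1, hv'.1], by linarith [ht.2, hv.2]⟩

/-- horizontal increments -/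
theorem Gb_hor {H : ℝ} (hH : 0 < H) {G : ℝ × ℝ → ℂ} (hG : Measurable G) {C : ℝ}
    (hb : ∀ z, ‖G z‖ ≤ C) (x x' v : ℝ) :
    ∑' b : ℤ, ‖Gb H b G (x, v) - Gb H b G (x', v)‖ₑ ^ 2 =
      ENNReal.ofReal (1 / H) * ∫⁻ t in Ioc v (v + H), ‖G (x, t) - G (x', t)‖ₑ ^ 2 := by
  have hm : ∀ x, Measurable fun t => G (x, t) := fun x => hG.comp (by fun_prop)
  have hloc : ∀ x, LocallyIntegrable fun t => G (x, t) := by
    intro x
    have h1 : LocallyIntegrable (fun _ : ℝ => C) := (continuous_const).locallyIntegrable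
    exact h1.mono (hm x).aestronglyMeasurable (Filter.Eventually.of_forall fun t => by
      rw [Real.norm_eq_abs]
      exact (hb _).trans (le_abs_self _))
  have h := parseval hH (v := v) (f := fun t => G (x, t) - G (x', t))
    (MemLp.of_bound ((hm x).sub (hm x')).aestronglyMeasurable (C + C)
      (Filter.Eventually.of_forall fun t => (norm_sub_le _ _).trans (add_le_add (hb _) (hb _))))
  rw [← h]
  congr 1
  funext b
  rw [cf_sub b (hloc x) (hloc x')]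
  rfl

/-- Cauchy–Schwarz with the constant function -/
theorem lint_sq_le {α : Type*} [MeasurableSpace α] (μ : Measure α) {f : α → ℝ≥0∞}
    (hf : AEMeasurable f μ) : (∫⁻ a, f a ∂μ) ^ 2 ≤ μ univ * ∫⁻ a, f a ^ 2 ∂μ := by
  have h := ENNReal.lintegral_mul_le_Lp_mul_Lq μ (p := 2) (q := 2) Real.HolderConjugate.two_two
    (f := f) (g := fun _ => 1) hf aemeasurable_const
  simp only [Pi.mul_apply, mul_one, ENNReal.one_rpow, lintegral_const, one_mul] at h
  calc (∫⁻ a, f a ∂μ) ^ 2 ≤ ((∫⁻ a, f a ^ (2:ℝ) ∂μ) ^ (1 / 2 : ℝ) * μ univ ^ (1 / 2 : ℝ)) ^ 2 := by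
        gcongr
    _ = μ univ * ∫⁻ a, f a ^ 2 ∂μ := by
        rw [mul_pow, ← ENNReal.rpow_natCast, ← ENNReal.rpow_natCast, ← ENNReal.rpow_mul,
          ← ENNReal.rpow_mul]
        norm_num
        rw [mul_comm]

/-- variance bound -/
theorem var_le {α : Type*} [MeasurableSpace α] (μ : Measure α) [IsFiniteMeasure μ]
    (h0 : μ univ ≠ 0) {w : α → ℂ} (hw : Integrable w μ) :
    ∫⁻ z, ‖w z - ⨍ z', w z' ∂μ‖ₑ ^ 2 ∂μ ≤ (μ univ)⁻¹ * ∫⁻ z, ∫⁻ z', ‖w z - w z'‖ₑ ^ 2 ∂μ ∂μ := by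
  have hfin : μ univ ≠ ⊤ := measure_ne_top μ univ
  have key : ∀ z, ‖w z - ⨍ z', w z' ∂μ‖ₑ ^ 2 ≤ (μ univ)⁻¹ * ∫⁻ z', ‖w z - w z'‖ₑ ^ 2 ∂μ := by
    intro z
    have h1 : w z - ⨍ z', w z' ∂μ = ⨍ z', (w z - w z') ∂μ := by
      have : NeZero μ := ⟨by rintro rfl; simp at h0⟩
      rw [average_eq, average_eq, integral_sub (integrable_const _) hw, smul_sub, integral_const,
        smul_smul]
      congr 1
      rw [inv_mul_cancel₀, one_smul]
      rw [measureReal_def]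
      exact (ENNReal.toReal_pos h0 hfin).ne'
    rw [h1, average_eq, enorm_smul, mul_pow]
    have h2 : ‖(μ.real univ)⁻¹‖ₑ = (μ univ)⁻¹ := by
      rw [Real.enorm_eq_ofReal (by positivity), measureReal_def,
        ENNReal.ofReal_inv_of_pos (ENNReal.toReal_pos h0 hfin), ENNReal.ofReal_toReal hfin]
    rw [h2]
    calc (μ univ)⁻¹ ^ 2 * ‖∫ z', (w z - w z') ∂μ‖ₑ ^ 2
        ≤ (μ univ)⁻¹ ^ 2 * (∫⁻ z', ‖w z - w z'‖ₑ ∂μ) ^ 2 := by
          gcongr
          exact enorm_integral_le_lintegral_enorm _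
      _ ≤ (μ univ)⁻¹ ^ 2 * (μ univ * ∫⁻ z', ‖w z - w z'‖ₑ ^ 2 ∂μ) := by
          gcongr
          exact lint_sq_le μ ((aestronglyMeasurable_const.sub hw.1).enorm)
      _ = _ := by
          rw [sq, mul_assoc, ← mul_assoc _ (μ univ), ENNReal.inv_mul_cancel h0 hfin, one_mul]
  calc ∫⁻ z, ‖w z - ⨍ z', w z' ∂μ‖ₑ ^ 2 ∂μ
      ≤ ∫⁻ z, (μ univ)⁻¹ * ∫⁻ z', ‖w z - w z'‖ₑ ^ 2 ∂μ ∂μ := lintegral_mono key
    _ = _ := by
        rw [lintegral_const_mul' _ _ (ENNReal.inv_ne_top.mpr h0)]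

end Vale.Agent.P112.H8
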