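import Vale.Agent.P112.H8.StepA

/-!
# Box averages of the windowed coefficients
-/

open MeasureTheory Set
open scoped ENNReal

noncomputable section

namespace Vale.Agent.P112.H8

open Vale.Agent.P112.H371

theorem lint_fst {μ ν : Measure ℝ} [SFinite μ] [SFinite ν] {f : ℝ → ℝ≥0∞} (hf : Measurable f) :
    ∫⁻ z : ℝ × ℝ, f z.1 ∂(μ.prod ν) = ν univ * ∫⁻ x, f x ∂μ := by
  have h := lintegral_prod (μ := μ) (ν := ν) (fun z : ℝ × ℝ => f z.1)
    (hf.comp measurable_fst).aemeasurable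
  rw [h]
  simp only [lintegral_const]
  rw [lintegral_mul_const _ hf, mul_comm]

theorem lint_snd {μ ν : Measure ℝ} [SFinite μ] [SFinite ν] {f : ℝ → ℝ≥0∞} (hf : Measurable f) :
    ∫⁻ z : ℝ × ℝ, f z.2 ∂(μ.prod ν) = μ univ * ∫⁻ x, f x ∂ν := by
  have h := lintegral_prod (μ := μ) (ν := ν) (fun z : ℝ × ℝ => f z.2)
    (hf.comp measurable_snd).aemeasurable
  rw [h]
  simp only [lintegral_const]
  rw [mul_comm]

/-- The box averages: the variance of the coefficients on one box. -/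
theorem box_avg {H lam h x0 y0 : ℝ} (hH : 0 < H) (hlam : 0 < lam) (hh0 : 0 < h) (hh : h ≤ H)
    {G : ℝ × ℝ → ℂ} (hG : Measurable G) {C : ℝ} (hb : ∀ z, ‖G z‖ ≤ C)
    {gs : ℝ × ℝ → ℝ≥0∞} (hgs : Measurable gs)
    (hosc : ∀ x ∈ Ico x0 (x0 + lam), ∀ x' ∈ Ico x0 (x0 + lam), ∀ t ∈ Ioo y0 (y0 + h + H),
      ‖G (x, t) - G (x', t)‖ₑ ≤ gs (x, t)) :
    ∑' b : ℤ, ∫⁻ z in Ico x0 (x0 + lam) ×ˢ Ico y0 (y0 + h), ‖Gb H b G z -
        ⨍ w in Ico x0 (x0 + lam) ×ˢ Ico y0 (y0 + h), Gb H b G w‖ₑ ^ 2 ≤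
      ENNReal.ofReal (4 * h / H) *
        ((∫⁻ z in Ico x0 (x0 + lam) ×ˢ Ico y0 (y0 + h), ‖G z‖ₑ ^ 2) +
        ∫⁻ z in Ico x0 (x0 + lam) ×ˢ Ico (y0 + H) (y0 + H + h), ‖G z‖ₑ ^ 2) +
      2 * ∫⁻ z in Ico x0 (x0 + lam) ×ˢ Ico y0 (y0 + h), Wa H (fun w => gs w ^ 2) z := by
  set I := Ico x0 (x0 + lam) with hI
  set J := Ico y0 (y0 + h) with hJ
  set J' := Ico (y0 + H) (y0 + H + h) with hJ'
  set B := I ×ˢ J with hB
  have hImeas : MeasurableSet I := measurableSet_Ico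
  have hJmeas : MeasurableSet J := measurableSet_Ico
  have hBmeas : MeasurableSet B := hImeas.prod hJmeas
  have hIv : volume I = ENNReal.ofReal lam := by rw [hI, Real.volume_Ico]; congr 1; ring
  have hJv : volume J = ENNReal.ofReal h := by rw [hJ, Real.volume_Ico]; congr 1; ring
  set μ : Measure (ℝ × ℝ) := volume.restrict B with hμ
  have hμp : μ = (volume.restrict I).prod (volume.restrict J) := by
    rw [Measure.prod_restrict, hμ, hB, ← Measure.volume_eq_prod]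
  have hμu : μ univ = ENNReal.ofReal lam * ENNReal.ofReal h := by
    rw [hμp, ← univ_prod_univ, Measure.prod_prod, Measure.restrict_apply_univ,
      Measure.restrict_apply_univ, hIv, hJv]
  have hμ0 : μ univ ≠ 0 := by
    rw [hμu]
    exact mul_ne_zero (by simpa using hlam) (by simpa using hh0)
  have hμt : μ univ ≠ ⊤ := by
    rw [hμu]
    exact ENNReal.mul_ne_top ENNReal.ofReal_ne_top ENNReal.ofReal_ne_top
  have hfin : IsFiniteMeasure μ := ⟨lt_top_iff_ne_top.mpr hμt⟩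
  have hGm : ∀ b : ℤ, Measurable (Gb H b G) := fun b => Gb_meas hH b hG
  have hGi : ∀ b : ℤ, Integrable (Gb H b G) μ := fun b =>
    (MemLp.of_bound (p := 1) (hGm b).aestronglyMeasurable C
      (Filter.Eventually.of_forall fun z => Gb_bdd hH b hb z)).integrable le_rfl
  -- step 1
  have s1 : ∑' b : ℤ, ∫⁻ z in B, ‖Gb H b G z - ⨍ w in B, Gb H b G w‖ₑ ^ 2 ≤
      (μ univ)⁻¹ * ∫⁻ z, ∫⁻ z', ∑' b : ℤ, ‖Gb H b G z - Gb H b G z'‖ₑ ^ 2 ∂μ ∂μ := by
    calc ∑' b : ℤ, ∫⁻ z in B, ‖Gb H b G z - ⨍ w in B, Gb H b G w‖ₑ ^ 2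
        ≤ ∑' b : ℤ, (μ univ)⁻¹ * ∫⁻ z, ∫⁻ z', ‖Gb H b G z - Gb H b G z'‖ₑ ^ 2 ∂μ ∂μ :=
          ENNReal.tsum_le_tsum fun b => var_le μ hμ0 (hGi b)
      _ = (μ univ)⁻¹ * ∑' b : ℤ, ∫⁻ z, ∫⁻ z', ‖Gb H b G z - Gb H b G z'‖ₑ ^ 2 ∂μ ∂μ :=
          ENNReal.tsum_mul_left
      _ = (μ univ)⁻¹ * ∫⁻ z, ∑' b : ℤ, ∫⁻ z', ‖Gb H b G z - Gb H b G z'‖ₑ ^ 2 ∂μ ∂μ := by
          rw [lintegral_tsum]
          intro b
          apply Measurable.aemeasurable
          apply Measurable.lintegral_prod_right'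
            (f := fun p : (ℝ × ℝ) × (ℝ × ℝ) => ‖Gb H b G p.1 - Gb H b G p.2‖ₑ ^ 2)
          exact (((hGm b).comp measurable_fst).sub ((hGm b).comp measurable_snd)).enorm.pow_const 2
      _ = _ := by
          congr 1
          apply lintegral_congr
          intro z
          rw [lintegral_tsum]
          intro b
          exact ((measurable_const.sub (hGm b)).enorm.pow_const 2).aemeasurable
  -- step 2
  set A : ℝ → ℝ≥0∞ := fun x => (∫⁻ t in J, ‖G (x, t)‖ₑ ^ 2) + ∫⁻ t in J', ‖G (x, t)‖ₑ ^ 2 with hA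
  set D : ℝ × ℝ → ℝ≥0∞ := Wa H (fun w => gs w ^ 2) with hD
  have hAm : Measurable A := by
    apply Measurable.add
    · exact Measurable.lintegral_prod_right' (f := fun p : ℝ × ℝ => ‖G p‖ₑ ^ 2)
        (hG.enorm.pow_const 2)
    · exact Measurable.lintegral_prod_right' (f := fun p : ℝ × ℝ => ‖G p‖ₑ ^ 2)
        (hG.enorm.pow_const 2)
  have hDm : Measurable D := Wa_meas (hgs.pow_const 2)
  have s2 : ∀ z ∈ B, ∀ z' ∈ B, ∑' b : ℤ, ‖Gb H b G z - Gb H b G z'‖ₑ ^ 2 ≤
      ENNReal.ofReal (4 / H) * A z.1 + 2 * D (z.1, z'.2) := by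
    rintro ⟨x, v⟩ ⟨hx, hv⟩ ⟨x', v'⟩ ⟨hx', hv'⟩
    simp only at hx hv hx' hv' ⊢
    calc ∑' b : ℤ, ‖Gb H b G (x, v) - Gb H b G (x', v')‖ₑ ^ 2
        ≤ ∑' b : ℤ, (2 * ‖Gb H b G (x, v) - Gb H b G (x, v')‖ₑ ^ 2 +
          2 * ‖Gb H b G (x, v') - Gb H b G (x', v')‖ₑ ^ 2) := by
          apply ENNReal.tsum_le_tsum
          intro b
          have := sq_add_le (Gb H b G (x, v) - Gb H b G (x, v'))
            (Gb H b G (x, v') - Gb H b G (x', v'))
          rwa [sub_add_sub_cancel] at this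
      _ = 2 * (∑' b : ℤ, ‖Gb H b G (x, v) - Gb H b G (x, v')‖ₑ ^ 2) +
          2 * ∑' b : ℤ, ‖Gb H b G (x, v') - Gb H b G (x', v')‖ₑ ^ 2 := by
          rw [ENNReal.tsum_add, ENNReal.tsum_mul_left, ENNReal.tsum_mul_left]
      _ ≤ 2 * (ENNReal.ofReal (2 / H) * A x) + 2 * D (x, v') := by
          gcongr
          · exact Gb_vert_box hH hG hb x hh hv hv'
          · rw [Gb_hor hH hG hb, hD, Wa]
            gcongr 1
            apply setLIntegral_mono' measurableSet_Ioc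
            intro t ht
            gcongr
            exact hosc x hx x' hx' t ⟨by linarith [ht.1, hv'.1], by linarith [ht.2, hv'.2]⟩
      _ = _ := by
          rw [← mul_assoc, show (4 / H : ℝ) = 2 * (2 / H) by ring,
            ENNReal.ofReal_mul (by norm_num)]
          norm_num
  -- step 3
  have s3 : ∫⁻ z, ∫⁻ z', ∑' b : ℤ, ‖Gb H b G z - Gb H b G z'‖ₑ ^ 2 ∂μ ∂μ ≤
      ENNReal.ofReal (4 / H) * (μ univ * (ENNReal.ofReal h *
        ((∫⁻ z in B, ‖G z‖ₑ ^ 2) + ∫⁻ z in I ×ˢ J', ‖G z‖ₑ ^ 2))) +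
      2 * (μ univ * ∫⁻ z in B, D z) := by
    calc ∫⁻ z, ∫⁻ z', ∑' b : ℤ, ‖Gb H b G z - Gb H b G z'‖ₑ ^ 2 ∂μ ∂μ
        ≤ ∫⁻ z, ∫⁻ z', (ENNReal.ofReal (4 / H) * A z.1 + 2 * D (z.1, z'.2)) ∂μ ∂μ := by
          apply setLIntegral_mono' hBmeas
          intro z hz
          apply setLIntegral_mono' hBmeas
          intro z' hz'
          exact s2 z hz z' hz'
      _ = ∫⁻ z, (μ univ * (ENNReal.ofReal (4 / H) * A z.1) +
          2 * (ENNReal.ofReal lam * ∫⁻ v' in J, D (z.1, v'))) ∂μ := by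
          apply lintegral_congr
          intro z
          have hm1 : Measurable fun z' : ℝ × ℝ => D (z.1, z'.2) :=
            hDm.comp (measurable_const.prodMk measurable_snd)
          rw [lintegral_add_left measurable_const, lintegral_const, mul_comm (μ univ),
            lintegral_const_mul _ hm1]
          congr 2
          rw [hμp]
          rw [lint_snd (f := fun v' => D (z.1, v')) (hDm.comp (measurable_const.prodMk measurable_id)),
            Measure.restrict_apply_univ, hIv]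
      _ = μ univ * (ENNReal.ofReal (4 / H) * ∫⁻ z, A z.1 ∂μ) +
          2 * (ENNReal.ofReal lam * ∫⁻ z : ℝ × ℝ, (∫⁻ v' in J, D (z.1, v')) ∂μ) := by
          have hEm : Measurable fun x : ℝ => ∫⁻ v' in J, D (x, v') :=
            Measurable.lintegral_prod_right' (f := D) hDm
          have hEm' : Measurable fun z : ℝ × ℝ => ∫⁻ v' in J, D (z.1, v') := hEm.comp measurable_fst
          have hAm' : Measurable fun z : ℝ × ℝ => A z.1 := hAm.comp measurable_fst
          rw [lintegral_add_left ((hAm'.const_mul _).const_mul _),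
            lintegral_const_mul _ (hAm'.const_mul _), lintegral_const_mul _ hAm',
            lintegral_const_mul _ (hEm'.const_mul _), lintegral_const_mul _ hEm']
      _ = _ := by
          have hEm : Measurable fun x : ℝ => ∫⁻ v' in J, D (x, v') :=
            Measurable.lintegral_prod_right' (f := D) hDm
          have e1 : ∫⁻ z, A z.1 ∂μ = ENNReal.ofReal h *
              ((∫⁻ z in B, ‖G z‖ₑ ^ 2) + ∫⁻ z in I ×ˢ J', ‖G z‖ₑ ^ 2) := by
            rw [hμp, lint_fst hAm, Measure.restrict_apply_univ, hJv]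
            congr 1
            rw [hA, lintegral_add_left]
            · congr 1
              · rw [hB, Measure.volume_eq_prod, ← Measure.prod_restrict, lintegral_prod]
                exact (hG.enorm.pow_const 2).aemeasurable
              · rw [Measure.volume_eq_prod, ← Measure.prod_restrict, lintegral_prod]
                exact (hG.enorm.pow_const 2).aemeasurable
            · exact Measurable.lintegral_prod_right' (f := fun p : ℝ × ℝ => ‖G p‖ₑ ^ 2)
                (hG.enorm.pow_const 2)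
          have e2 : ∫⁻ z : ℝ × ℝ, (∫⁻ v' in J, D (z.1, v')) ∂μ =
              ENNReal.ofReal h * ∫⁻ z in B, D z := by
            rw [hμp, lint_fst hEm, Measure.restrict_apply_univ, hJv, hB, Measure.volume_eq_prod,
              ← Measure.prod_restrict, lintegral_prod _ hDm.aemeasurable]
          rw [e1, e2, hμu]
          ring
  refine s1.trans ((mul_le_mul_right s3 _).trans (le_of_eq ?_))
  rw [mul_add]
  have h1 : ∀ X : ℝ≥0∞, (μ univ)⁻¹ * (μ univ * X) = X := fun X => by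
    rw [← mul_assoc, ENNReal.inv_mul_cancel hμ0 hμt, one_mul]
  congr 1
  · rw [mul_left_comm, h1, ← mul_assoc, ← ENNReal.ofReal_mul (by positivity)]
    congr 2
    ring
  · rw [mul_left_comm, h1]

end Vale.Agent.P112.H8
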