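import Vale.Agent.P112.H8.StepB
import Vale.Agent.P112.H22.Use

/-!
# From tube functions to step systems: block (u1) of [H-USE]
-/

open MeasureTheory Set
open scoped ENNReal

noncomputable section

namespace Vale.Agent.P112.H8

open Vale.Agent.P112.H371 Vale.Agent.P112.H646

/-- boxes, common to all bands; `tb k` is the tube of the box `k`. -/
structure Bxs (ι κ : Type) where
  s : ι → ℝ
  tb : κ → ι
  x0 : κ → ℝ
  lam : κ → ℝ
  y0 : κ → ℝ
  h : κ → ℝ
  lam_pos : ∀ k, 0 < lam k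
  h_pos : ∀ k, 0 < h k

variable {ι κ : Type}

namespace Bxs

/-- the box `k` in the coordinates `(x, y - s x)` of its tube -/
def box (X : Bxs ι κ) (k : κ) : Set (ℝ × ℝ) :=
  Ico (X.x0 k) (X.x0 k + X.lam k) ×ˢ Ico (X.y0 k) (X.y0 k + X.h k)

/-- the boxes of one tube are disjoint -/
def Disj (X : Bxs ι κ) : Prop := ∀ k k', X.tb k = X.tb k' → k ≠ k' → Disjoint (X.box k) (X.box k')

/-- the region of the tube `i` in its own coordinates -/
def reg (X : Bxs ι κ) (i : ι) : Set (ℝ × ℝ) := {w | ∃ k, X.tb k = i ∧ w ∈ X.box k}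

/-- the coordinates of the tube `i` -/
def tilt (X : Bxs ι κ) (i : ι) (z : ℝ × ℝ) : ℝ × ℝ := (z.1, z.2 - X.s i * z.1)

/-- the value of the band `b` on the box `k` -/
def val (X : Bxs ι κ) (H : ℝ) (g : ι → ℝ × ℝ → ℂ) (b : ℤ) (k : κ) : ℂ :=
  ⨍ w in X.box k, Gb H b (g (X.tb k)) w

open Classical in
/-- the step amplitude in the coordinates of the tube `i` -/
def at' [Fintype κ] (X : Bxs ι κ) (H : ℝ) (g : ι → ℝ × ℝ → ℂ) (b : ℤ) (i : ι) (w : ℝ × ℝ) : ℂ :=
  ∑ k, if X.tb k = i ∧ w ∈ X.box k then X.val H g b k else 0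

theorem measurableSet_box (X : Bxs ι κ) (k : κ) : MeasurableSet (X.box k) :=
  measurableSet_Ico.prod measurableSet_Ico

theorem at'_eq [Fintype κ] {X : Bxs ι κ} (hX : X.Disj) (H : ℝ) (g : ι → ℝ × ℝ → ℂ) (b : ℤ)
    {k : κ} {w : ℝ × ℝ} (hw : w ∈ X.box k) : X.at' H g b (X.tb k) w = X.val H g b k := by
  classical
  rw [at', Finset.sum_eq_single k]
  · simp [hw]
  · intro k' _ hk'
    rw [if_neg]
    rintro ⟨h1, h2⟩
    exact Set.disjoint_left.mp (hX k' k h1 hk') h2 hw
  · intro h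
    exact absurd (Finset.mem_univ k) h

theorem at'_zero [Fintype κ] (X : Bxs ι κ) (H : ℝ) (g : ι → ℝ × ℝ → ℂ) (b : ℤ) {i : ι}
    {w : ℝ × ℝ} (hw : w ∉ X.reg i) : X.at' H g b i w = 0 := by
  classical
  rw [at']
  apply Finset.sum_eq_zero
  intro k _
  rw [if_neg]
  rintro ⟨h1, h2⟩
  exact hw ⟨k, h1, h2⟩

theorem measurable_at' [Fintype κ] (X : Bxs ι κ) (H : ℝ) (g : ι → ℝ × ℝ → ℂ) (b : ℤ) (i : ι) :
    Measurable (X.at' H g b i) := by
  classical
  apply Finset.measurable_sum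
  intro k _
  by_cases h : X.tb k = i
  · have : (fun w => if X.tb k = i ∧ w ∈ X.box k then X.val H g b k else 0)
        = (X.box k).indicator fun _ => X.val H g b k := by
      funext w
      simp [h, indicator_apply]
    rw [this]
    exact measurable_const.indicator (X.measurableSet_box k)
  · have : (fun w => if X.tb k = i ∧ w ∈ X.box k then X.val H g b k else 0) = fun _ => 0 := by
      funext w
      simp [h]
    rw [this]
    exact measurable_const

/-- sums over the boxes of one tube -/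
theorem sum_box_le [Fintype κ] [DecidableEq ι] {X : Bxs ι κ} (hX : X.Disj) (i : ι)
    (f : ℝ × ℝ → ℝ≥0∞) :
    ∑ k ∈ Finset.univ.filter (fun k => X.tb k = i), ∫⁻ w in X.box k, f w ≤ ∫⁻ w, f w := by
  classical
  rw [← lintegral_biUnion_finset]
  · exact setLIntegral_le_lintegral _ _
  · intro k hk k' hk' hne
    simp only [Finset.coe_filter, Finset.mem_univ, true_and, mem_ofPred_eq] at hk hk'
    exact hX k k' (hk.trans hk'.symm) hne
  · intro k _
    exact X.measurableSet_box k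

/-- the same for the boxes shifted by `H` -/
theorem sum_box_shift_le [Fintype κ] [DecidableEq ι] {X : Bxs ι κ} (hX : X.Disj) (i : ι) (H : ℝ)
    (f : ℝ × ℝ → ℝ≥0∞) :
    ∑ k ∈ Finset.univ.filter (fun k => X.tb k = i),
      ∫⁻ w in Ico (X.x0 k) (X.x0 k + X.lam k) ×ˢ Ico (X.y0 k + H) (X.y0 k + H + X.h k), f w
      ≤ ∫⁻ w, f w := by
  classical
  rw [← lintegral_biUnion_finset]
  · exact setLIntegral_le_lintegral _ _
  · intro k hk k' hk' hne
    simp only [Finset.coe_filter, Finset.mem_univ, true_and, mem_ofPred_eq] at hk hk'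
    have h := hX k k' (hk.trans hk'.symm) hne
    rw [Function.onFun, Set.disjoint_left]
    rintro ⟨x, y⟩ ⟨h1, h2⟩ ⟨h3, h4⟩
    simp only [mem_Ico] at h1 h2 h3 h4
    have m1 : (x, y - H) ∈ X.box k := by
      refine ⟨h1, ?_⟩
      simp only [mem_Ico]
      exact ⟨by linarith [h2.1], by linarith [h2.2]⟩
    have m2 : (x, y - H) ∈ X.box k' := by
      refine ⟨h3, ?_⟩
      simp only [mem_Ico]
      exact ⟨by linarith [h4.1], by linarith [h4.2]⟩
    exact Set.disjoint_left.mp h m1 m2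
  · intro k _
    exact measurableSet_Ico.prod measurableSet_Ico

/-- the error of the step function of one tube, all bands -/
theorem err_one [Fintype κ] {X : Bxs ι κ} (hX : X.Disj) {H θ : ℝ} (hH : 0 < H)
    (hθ0 : 0 ≤ θ) (hθ : ∀ k, X.h k ≤ θ * H) (hθ1 : θ ≤ 1) {g : ι → ℝ × ℝ → ℂ} {i : ι} (hg : Measurable (g i))
    {C : ℝ} (hb : ∀ z, ‖g i z‖ ≤ C) {gs : ℝ × ℝ → ℝ≥0∞} (hgs : Measurable gs)
    (hosc : ∀ k, X.tb k = i → ∀ x ∈ Ico (X.x0 k) (X.x0 k + X.lam k),
      ∀ x' ∈ Ico (X.x0 k) (X.x0 k + X.lam k), ∀ t ∈ Ioo (X.y0 k) (X.y0 k + X.h k + H),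
      ‖g i (x, t) - g i (x', t)‖ₑ ≤ gs (x, t))
    (hout : ∀ w, w ∉ X.reg i → ∀ t ∈ Ioc w.2 (w.2 + H), g i (w.1, t) = 0) :
    ∫⁻ w, ∑' b : ℤ, ‖Gb H b (g i) w - X.at' H g b i w‖ₑ ^ 2 ≤
      ENNReal.ofReal (8 * θ) * (∫⁻ w, ‖g i w‖ₑ ^ 2) + 2 * ∫⁻ w, gs w ^ 2 := by
  classical
  have h0 : ∀ w, w ∉ X.reg i → ∑' b : ℤ, ‖Gb H b (g i) w - X.at' H g b i w‖ₑ ^ 2 = 0 := by
    intro w hw
    rw [ENNReal.tsum_eq_zero]
    intro b
    rw [X.at'_zero H g b hw, sub_zero]
    have : Gb H b (g i) w = 0 := by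
      rw [Gb_cf, cf_congr (g := fun _ => 0) hH b (fun t ht => hout w hw t ht)]
      simp [cf]
    rw [this]
    simp
  set S := Finset.univ.filter (fun k => X.tb k = i) with hS
  have hreg : X.reg i = ⋃ k ∈ S, X.box k := by
    ext w
    simp [reg, hS]
  have hregm : MeasurableSet (X.reg i) := by
    rw [hreg]
    exact S.measurableSet_biUnion fun k _ => X.measurableSet_box k
  calc ∫⁻ w, ∑' b : ℤ, ‖Gb H b (g i) w - X.at' H g b i w‖ₑ ^ 2
      = ∫⁻ w in X.reg i, ∑' b : ℤ, ‖Gb H b (g i) w - X.at' H g b i w‖ₑ ^ 2 := by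
        rw [← lintegral_indicator hregm]
        apply lintegral_congr
        intro w
        by_cases hw : w ∈ X.reg i
        · rw [indicator_of_mem hw]
        · rw [indicator_of_notMem hw, h0 w hw]
    _ ≤ ∑ k ∈ S, ∫⁻ w in X.box k, ∑' b : ℤ, ‖Gb H b (g i) w - X.at' H g b i w‖ₑ ^ 2 := by
        rw [hreg, lintegral_biUnion_finset]
        · intro k hk k' hk' hne
          simp only [hS, Finset.coe_filter, Finset.mem_univ, true_and, mem_ofPred_eq] at hk hk'
          exact hX k k' (hk.trans hk'.symm) hne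
        · intro k _
          exact X.measurableSet_box k
    _ ≤ ∑ k ∈ S, (ENNReal.ofReal (4 * θ) * ((∫⁻ w in X.box k, ‖g i w‖ₑ ^ 2) +
          ∫⁻ w in Ico (X.x0 k) (X.x0 k + X.lam k) ×ˢ Ico (X.y0 k + H) (X.y0 k + H + X.h k),
            ‖g i w‖ₑ ^ 2) + 2 * ∫⁻ w in X.box k, Wa H (fun w => gs w ^ 2) w) := by
        apply Finset.sum_le_sum
        intro k hk
        have hki : X.tb k = i := by simpa [hS] using hk
        have hhk : X.h k ≤ H := (hθ k).trans (by nlinarith)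
        have h1 := box_avg (x0 := X.x0 k) (y0 := X.y0 k) hH (X.lam_pos k) (X.h_pos k) hhk hg hb hgs
          (hosc k hki)
        have h2 : ∫⁻ w in X.box k, ∑' b : ℤ, ‖Gb H b (g i) w - X.at' H g b i w‖ₑ ^ 2 =
            ∑' b : ℤ, ∫⁻ w in X.box k, ‖Gb H b (g i) w - ⨍ w in X.box k, Gb H b (g i) w‖ₑ ^ 2 := by
          rw [← lintegral_tsum]
          · apply setLIntegral_congr_fun (X.measurableSet_box k)
            intro w hw
            simp only
            congr 1
            funext b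
            have := at'_eq hX H g b hw
            rw [hki] at this
            rw [this, val, hki]
          · intro b
            exact (((Gb_meas hH b hg).sub measurable_const).enorm.pow_const 2).aemeasurable
        rw [h2]
        refine h1.trans (add_le_add (mul_le_mul_left ?_ _) le_rfl)
        apply ENNReal.ofReal_le_ofReal
        rw [div_le_iff₀ hH]
        linarith [hθ k]
    _ = ENNReal.ofReal (4 * θ) * ((∑ k ∈ S, ∫⁻ w in X.box k, ‖g i w‖ₑ ^ 2) +
          ∑ k ∈ S, ∫⁻ w in Ico (X.x0 k) (X.x0 k + X.lam k) ×ˢ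
            Ico (X.y0 k + H) (X.y0 k + H + X.h k), ‖g i w‖ₑ ^ 2) +
          2 * ∑ k ∈ S, ∫⁻ w in X.box k, Wa H (fun w => gs w ^ 2) w := by
        rw [Finset.sum_add_distrib, ← Finset.mul_sum, ← Finset.mul_sum, Finset.sum_add_distrib]
    _ ≤ ENNReal.ofReal (4 * θ) * ((∫⁻ w, ‖g i w‖ₑ ^ 2) + ∫⁻ w, ‖g i w‖ₑ ^ 2) +
          2 * ∫⁻ w, Wa H (fun w => gs w ^ 2) w := by
        gcongr
        · exact sum_box_le hX i _
        · exact sum_box_shift_le hX i H _
        · exact sum_box_le hX i _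
    _ = _ := by
        rw [lint_Wa_all hH (hgs.pow_const 2), ← two_mul, ← mul_assoc,
          show (8 * θ : ℝ) = (4 * θ) * 2 by ring,
          ENNReal.ofReal_mul (p := 4 * θ) (by positivity)]
        norm_num

end Bxs

end Vale.Agent.P112.H8
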